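import Vale.Agent.N355.Norm
import Vale.Agent.N355.A1RuleCore

/-! Soundness of the integer rules of the coarse covering. -/

namespace Vale.Agent.N355.A1

open Finset

/-- `y` lies in the box with centres `c` (offset two turns) and radii `r`. -/
def InBox (y : Ph) (c r : ℕ → ℕ) : Prop :=
  ∀ a j : Fin 6, |y a j - ((c (6 * a + j) : ℝ) / 65536 - 2)| ≤ (r (6 * a + j) : ℝ) / 65536

theorem dst_cast (a b : ℕ) : ((dst a b : ℕ) : ℝ) = |(a : ℝ) - b| := by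
  change (((a - b) + (b - a) : ℕ) : ℝ) = _
  rcases le_total a b with h | h
  · rw [Nat.sub_eq_zero_of_le h, zero_add, Nat.cast_sub h, abs_sub_comm,
      abs_of_nonneg (sub_nonneg.2 (Nat.cast_le.2 h))]
  · rw [Nat.sub_eq_zero_of_le h, add_zero, Nat.cast_sub h,
      abs_of_nonneg (sub_nonneg.2 (Nat.cast_le.2 h))]

theorem sq_cast (a : ℕ) : ((sq a : ℕ) : ℝ) = (a : ℝ) ^ 2 := by
  change ((a * a : ℕ) : ℝ) = _
  push_cast; ring

theorem lt_iff (a b : ℕ) : lt a b = true ↔ a < b := by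
  unfold lt; rw [Nat.ble_eq]; exact Iff.rfl

theorem an_iff (a b : Bool) : an a b = true ↔ a = true ∧ b = true := by
  cases a <;> simp [an]

theorem orr_iff (a b : Bool) : orr a b = true ↔ a = true ∨ b = true := by
  cases a <;> simp [orr]

theorem nt_iff (a : Bool) : nt a = true ↔ ¬ a = true := by cases a <;> simp [nt]

theorem ch_eq (s : Bool) (a b : ℕ) : ch s a b = if s then a else b := by cases s <;> rfl

theorem add_cast (a b : ℕ) : ((Nat.add a b : ℕ) : ℝ) = a + b := Nat.cast_add a b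

theorem mul_cast (a b : ℕ) : ((Nat.mul a b : ℕ) : ℝ) = a * b := Nat.cast_mul a b

theorem InBox.scaled {y : Ph} {c r : ℕ → ℕ} (h : InBox y c r) (a j : Fin 6) :
    |65536 * y a j + 131072 - c (6 * a + j)| ≤ r (6 * a + j) := by
  have := abs_le.1 (h a j)
  rw [abs_le]
  constructor <;> linarith [this.1, this.2]

theorem sortOK_sound {c r : ℕ → ℕ} {y : Ph} (h : sortOK c r = true) (hN : Norm y)
    (hB : InBox y c r) : False := by
  have b7 : |65536 * y 1 1 + 131072 - c 7| ≤ r 7 := hB.scaled 1 1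
  have b8 : |65536 * y 1 2 + 131072 - c 8| ≤ r 8 := hB.scaled 1 2
  have b13 : |65536 * y 2 1 + 131072 - c 13| ≤ r 13 := hB.scaled 2 1
  have b14 : |65536 * y 2 2 + 131072 - c 14| ≤ r 14 := hB.scaled 2 2
  rw [abs_le] at b7 b8 b13 b14
  have s1 := hN.s12
  have s2 := hN.s34
  have s3 := hN.s13
  unfold sortOK at h
  simp only [orr_iff, lt_iff] at h
  rcases h with h | h | h | h
  · have : ((c 7 + r 7 + r 14 : ℕ) : ℝ) < (c 14 : ℕ) := Nat.cast_lt.2 h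
    push_cast at this
    linarith [b7.2, b14.1]
  · have : ((c 13 + r 13 + r 8 : ℕ) : ℝ) < (c 8 : ℕ) := Nat.cast_lt.2 h
    push_cast at this
    linarith [b13.2, b8.1]
  · have : ((c 7 + c 8 + r 7 + r 8 : ℕ) : ℝ) < (262144 : ℕ) := Nat.cast_lt.2 h
    push_cast at this
    linarith [b7.2, b8.2]
  · have : ((c 7 + c 13 + r 7 + r 13 : ℕ) : ℝ) < (262144 : ℕ) := Nat.cast_lt.2 h
    push_cast at this
    linarith [b7.2, b13.2]

theorem q9_cast (o e1 e2 e3 e4 : ℕ) :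
    ((q9 o e1 e2 e3 e4 : ℕ) : ℝ) = Q9 (e1 - o) (e2 - o) (e3 - o) (e4 - o) := by
  simp only [q9, add_cast, sq_cast, dst_cast, sq_abs, Q9]
  ring

theorem Q9_nonneg (a b c d : ℝ) : 0 ≤ Q9 a b c d := by unfold Q9; positivity

theorem Q9_add (a b c d u1 u2 u3 u4 : ℝ) : Q9 (a + u1) (b + u2) (c + u3) (d + u4) =
    Q9 a b c d + 2 * ((4 * a + d - 2 * (b + c)) * u1 + (4 * b + c - 2 * (a + d)) * u2 +
      (4 * c + b - 2 * (a + d)) * u3 + (4 * d + a - 2 * (b + c)) * u4) + Q9 u1 u2 u3 u4 := by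
  unfold Q9; ring

theorem Q9_smul (k a b c d : ℝ) : Q9 (k * a) (k * b) (k * c) (k * d) = k ^ 2 * Q9 a b c d := by
  unfold Q9; ring

theorem Q9_cross (w00 w01 w02 w10 w11 w12 w20 w21 w22 : ℝ) :
    Q9 (w11 - w01 - w10 + w00) (w12 - w02 - w10 + w00) (w21 - w01 - w20 + w00)
      (w22 - w02 - w20 + w00) ≤
    9 * (w00 ^ 2 + w01 ^ 2 + w02 ^ 2 + w10 ^ 2 + w11 ^ 2 + w12 ^ 2 + w20 ^ 2 + w21 ^ 2 +
      w22 ^ 2) := by
  have e : 9 * (w00 ^ 2 + w01 ^ 2 + w02 ^ 2 + w10 ^ 2 + w11 ^ 2 + w12 ^ 2 + w20 ^ 2 + w21 ^ 2 +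
      w22 ^ 2) - Q9 (w11 - w01 - w10 + w00) (w12 - w02 - w10 + w00) (w21 - w01 - w20 + w00)
      (w22 - w02 - w20 + w00) =
      (w00 + w01 + w02 - (w10 + w11 + w12)) ^ 2 + (w00 + w01 + w02 - (w20 + w21 + w22)) ^ 2 +
      (w10 + w11 + w12 - (w20 + w21 + w22)) ^ 2 + 3 * ((w00 + w10 + w20) ^ 2 +
      (w01 + w11 + w21) ^ 2 + (w02 + w12 + w22) ^ 2) := by
    unfold Q9; ring
  have : 0 ≤ (w00 + w01 + w02 - (w10 + w11 + w12)) ^ 2 +
      (w00 + w01 + w02 - (w20 + w21 + w22)) ^ 2 +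
      (w10 + w11 + w12 - (w20 + w21 + w22)) ^ 2 + 3 * ((w00 + w10 + w20) ^ 2 +
      (w01 + w11 + w21) ^ 2 + (w02 + w12 + w22) ^ 2) := by positivity
  linarith

theorem ee_spec (s : Bool) (t P M : ℕ) : ∃ n : ℤ, ((ee s t P M : ℕ) : ℝ) =
    (if s then -1 else 1) * ((P : ℝ) - M) + t - 65536 * n := by
  have key : ∀ A B : ℕ, ∃ n : ℤ, (((A + 65535 * B + t) % 65536 : ℕ) : ℝ) =
      (A : ℝ) - B + t - 65536 * n := by
    intro A B
    refine ⟨((A + 65535 * B + t) / 65536 : ℕ) - B, ?_⟩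
    have := Nat.mod_add_div (A + 65535 * B + t) 65536
    generalize (A + 65535 * B + t) / 65536 = q at this ⊢
    generalize (A + 65535 * B + t) % 65536 = m at this ⊢
    have h2 : ((m + 65536 * q : ℕ) : ℝ) = ((A + 65535 * B + t : ℕ) : ℝ) := by rw [this]
    push_cast at h2 ⊢
    linarith
  cases s
  · obtain ⟨n, hn⟩ := key P M
    exact ⟨n, hn.trans (by simp)⟩
  · obtain ⟨n, hn⟩ := key M P
    exact ⟨n, hn.trans (by simp)⟩

theorem gg_cast {a b p q : ℕ} (h : p + q ≤ 2000000) :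
    ((gg a b p q : ℕ) : ℝ) - 4194304 =
      4 * ((a : ℝ) - 144179) + (b - 144179) - 2 * ((p - 144179) + (q - 144179)) := by
  change (((4 * a + b + 4050125) - 2 * (p + q) : ℕ) : ℝ) - 4194304 = _
  rw [Nat.cast_sub (by omega)]
  push_cast
  ring

theorem tm_ge (s : Bool) (g ρ p n : ℕ) {u : ℝ} (hu : |u| ≤ ρ) :
    2 * (((if s then -1 else 1) * ((p : ℝ) - n) - ((g : ℝ) - 4194304)) * u) + 9 * u ^ 2 ≤
      (tm s g ρ p n : ℕ) := by
  have h2 : u ^ 2 ≤ (ρ : ℝ) ^ 2 := by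
    rw [← sq_abs u]; exact pow_le_pow_left₀ (abs_nonneg _) hu 2
  have key : ∀ k : ℝ, k * u ≤ |k| * ρ := fun k =>
    (le_abs_self _).trans (by rw [abs_mul]; exact mul_le_mul_of_nonneg_left hu (abs_nonneg _))
  cases s
  · have := key (1 * ((p : ℝ) - n) - ((g : ℝ) - 4194304))
    have e : |1 * ((p : ℝ) - n) - ((g : ℝ) - 4194304)| = |(g : ℝ) + n - (4194304 + p)| := by
      rw [← abs_neg]; congr 1; ring
    simp only [tm, ch_eq, add_cast, mul_cast, dst_cast, Bool.false_eq_true, if_false]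
    rw [e] at this
    push_cast
    nlinarith
  · have := key (-1 * ((p : ℝ) - n) - ((g : ℝ) - 4194304))
    have e : |-1 * ((p : ℝ) - n) - ((g : ℝ) - 4194304)| = |(g : ℝ) + p - (4194304 + n)| := by
      rw [← abs_neg]; congr 1; ring
    simp only [tm, ch_eq, add_cast, mul_cast, dst_cast, if_true]
    rw [e] at this
    push_cast
    nlinarith

theorem tq_ge (b : Bool) (g ρ : ℕ) {u : ℝ} (hu : |u| ≤ ρ) :
    -(2 * ((1 - if b then 1 else 0) * (((g : ℝ) - 4194304) * u))) ≤ (tq b g ρ : ℕ) := by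
  cases b
  · simp only [tq, ch_eq, mul_cast, dst_cast, Bool.false_eq_true, if_false]
    have : -(((g : ℝ) - 4194304) * u) ≤ |(g : ℝ) - 4194304| * ρ :=
      (neg_le_abs _).trans (by rw [abs_mul]; exact mul_le_mul_of_nonneg_left hu (abs_nonneg _))
    push_cast
    nlinarith
  · simp [tq, ch_eq]

/-- indicator. -/
noncomputable def dl (a b : ℕ) : ℝ := if a = b then 1 else 0

theorem sel_mul (g1 g2 g3 g4 : ℕ) (u : Ph) (a j : Fin 6) :
    (((sel g1 g2 g3 g4 (6 * a + j) : ℕ) : ℝ) - 4194304) * u a j =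
      dl a 1 * dl j 1 * (((g1 : ℝ) - 4194304) * u 1 1) +
      dl a 1 * dl j 2 * (((g2 : ℝ) - 4194304) * u 1 2) +
      dl a 2 * dl j 1 * (((g3 : ℝ) - 4194304) * u 2 1) +
      dl a 2 * dl j 2 * (((g4 : ℝ) - 4194304) * u 2 2) := by
  fin_cases a <;> fin_cases j <;> simp [sel, ch_eq, dl]

theorem mem_sum {i0 i1 i2 : ℕ} (h1 : i0 ≠ i1) (h2 : i0 ≠ i2) (h3 : i1 ≠ i2) (a : ℕ) :
    dl i0 a + dl i1 a + dl i2 a = if mem i0 i1 i2 a then 1 else 0 := by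
  simp only [mem, orr_iff, Nat.beq_eq, dl]
  by_cases a0 : i0 = a <;> by_cases a1 : i1 = a <;> by_cases a2 : i2 = a <;> simp [a0, a1, a2] <;>
    omega

theorem an_ite (a b : Bool) :
    (if an a b then (1 : ℝ) else 0) = (if a then 1 else 0) * if b then 1 else 0 := by
  cases a <;> cases b <;> simp [an]

theorem trip_spec {i0 i1 i2 : ℕ} (h : trip i0 i1 i2 = true) :
    i0 < 6 ∧ i1 < 6 ∧ i2 < 6 ∧ i0 ≠ i1 ∧ i0 ≠ i2 ∧ i1 ≠ i2 := by
  simp only [trip, an_iff, nt_iff, Nat.ble_eq, Nat.beq_eq] at h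
  omega

theorem ins_spec {e R : ℕ} (h : ins e R = true) {w : ℝ} (hw : |w| ≤ R) :
    |((e : ℝ) - 32768 + w) / 65536| < 1 / 2 := by
  simp only [ins, an_iff, lt_iff] at h
  have h1 : (R : ℝ) < e := Nat.cast_lt.2 h.1
  have h2 : ((e + R : ℕ) : ℝ) < (65536 : ℕ) := Nat.cast_lt.2 h.2
  push_cast at h2
  rw [abs_le] at hw
  rw [abs_lt]
  constructor <;> linarith [hw.1, hw.2]

theorem abs4 {s a b c d A B C D : ℝ} (hs : s = 1 ∨ s = -1) (ha : |a| ≤ A) (hb : |b| ≤ B)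
    (hc : |c| ≤ C) (hd : |d| ≤ D) : |s * (a - b - c + d)| ≤ A + B + C + D := by
  rw [abs_le] at *
  rcases hs with rfl | rfl <;> constructor <;> linarith [ha.1, ha.2, hb.1, hb.2, hc.1, hc.2,
    hd.1, hd.2]

theorem cmp2_sound {c r : ℕ → ℕ} {s : Bool} {i0 i1 i2 j0 j1 j2 : Fin 6} {y : Ph}
    {f1 f2 f3 f4 : ℕ} (hf1 : f1 = c 7) (hf2 : f2 = c 8 + 26214) (hf3 : f3 = c 13 + 26214)
    (hf4 : f4 = c 14) (a1 : (i0 : ℕ) ≠ i1) (a2 : (i0 : ℕ) ≠ i2) (a3 : (i1 : ℕ) ≠ i2)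
    (b1 : (j0 : ℕ) ≠ j1) (b2 : (j0 : ℕ) ≠ j2) (b3 : (j1 : ℕ) ≠ j2)
    (h : cmp2 c r s (mem i0 i1 i2 1) (mem i0 i1 i2 2) (mem j0 j1 j2 1) (mem j0 j1 j2 2)
      f1 f2 f3 f4 (6 * i0 + j0) (6 * i0 + j1) (6 * i0 + j2) (6 * i1 + j0) (6 * i1 + j1)
      (6 * i1 + j2) (6 * i2 + j0) (6 * i2 + j1) (6 * i2 + j2) = true)
    (hN : Norm y) (hB : InBox y c r) : False := by
  simp only [cmp2, cmp3, an_iff, lt_iff, Nat.ble_eq, Nat.add_eq] at h
  obtain ⟨hf, k1, k2, k3, k4, h⟩ := h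
  set u : Ph := fun a j => 65536 * y a j + 131072 - c (6 * a + j) with hu
  have hb : ∀ a j : Fin 6, |u a j| ≤ r (6 * a + j) := hB.scaled
  set σ : ℝ := if s then -1 else 1 with hσ
  have hs : σ = 1 ∨ σ = -1 := by cases s <;> simp [hσ]
  generalize he1 : ee s 85197 _ _ = e1 at k1 h
  generalize he2 : ee s 45875 (c (6 * ↑i1 + ↑j2) + _) _ = e2 at k2 h
  generalize he3 : ee s 45875 _ _ = e3 at k3 h
  generalize he4 : ee s 85197 _ _ = e4 at k4 h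
  obtain ⟨n1, hn1⟩ := ee_spec s 85197 (c (6 * i1 + j1) + c (6 * i0 + j0))
    (c (6 * i0 + j1) + c (6 * i1 + j0))
  obtain ⟨n2, hn2⟩ := ee_spec s 45875 (c (6 * i1 + j2) + c (6 * i0 + j0))
    (c (6 * i0 + j2) + c (6 * i1 + j0))
  obtain ⟨n3, hn3⟩ := ee_spec s 45875 (c (6 * i2 + j1) + c (6 * i0 + j0))
    (c (6 * i0 + j1) + c (6 * i2 + j0))
  obtain ⟨n4, hn4⟩ := ee_spec s 85197 (c (6 * i2 + j2) + c (6 * i0 + j0))
    (c (6 * i0 + j2) + c (6 * i2 + j0))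
  rw [he1] at hn1
  rw [he2] at hn2
  rw [he3] at hn3
  rw [he4] at hn4
  rw [← hσ] at hn1 hn2 hn3 hn4
  push_cast at hn1 hn2 hn3 hn4
  have d1 : σ * cr y i0 i1 j0 j1 - al - ((n1 - 1 : ℤ) : ℝ) =
      ((e1 : ℝ) - 32768 + σ * (u i1 j1 - u i0 j1 - u i1 j0 + u i0 j0)) / 65536 := by
    rw [hn1]; simp only [hu, cr, al]; push_cast; ring
  have d2 : σ * cr y i0 i1 j0 j2 + al - n2 =
      ((e2 : ℝ) - 32768 + σ * (u i1 j2 - u i0 j2 - u i1 j0 + u i0 j0)) / 65536 := by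
    rw [hn2]; simp only [hu, cr, al]; ring
  have d3 : σ * cr y i0 i2 j0 j1 + al - n3 =
      ((e3 : ℝ) - 32768 + σ * (u i2 j1 - u i0 j1 - u i2 j0 + u i0 j0)) / 65536 := by
    rw [hn3]; simp only [hu, cr, al]; ring
  have d4 : σ * cr y i0 i2 j0 j2 - al - ((n4 - 1 : ℤ) : ℝ) =
      ((e4 : ℝ) - 32768 + σ * (u i2 j2 - u i0 j2 - u i2 j0 + u i0 j0)) / 65536 := by
    rw [hn4]; simp only [hu, cr, al]; push_cast; ring
  have hm := hN.min i0 i1 i2 j0 j1 j2 σ (n1 - 1) n2 n3 (n4 - 1) (fun e => a1 (by rw [e]))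
    (fun e => a2 (by rw [e])) (fun e => a3 (by rw [e])) (fun e => b1 (by rw [e]))
    (fun e => b2 (by rw [e])) (fun e => b3 (by rw [e])) hs
    (d1 ▸ ins_spec k1 (by push_cast; exact abs4 hs (hb _ _) (hb _ _) (hb _ _) (hb _ _)))
    (d2 ▸ ins_spec k2 (by push_cast; exact abs4 hs (hb _ _) (hb _ _) (hb _ _) (hb _ _)))
    (d3 ▸ ins_spec k3 (by push_cast; exact abs4 hs (hb _ _) (hb _ _) (hb _ _) (hb _ _)))
    (d4 ▸ ins_spec k4 (by push_cast; exact abs4 hs (hb _ _) (hb _ _) (hb _ _) (hb _ _)))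
  have o1 : y 1 1 - al = ((f1 : ℝ) - 144179 + u 1 1) / 65536 := by
    simp only [hu, al, hf1]; norm_num; ring
  have o2 : y 1 2 + al = ((f2 : ℝ) - 144179 + u 1 2) / 65536 := by
    simp only [hu, al, hf2]; norm_num; ring
  have o3 : y 2 1 + al = ((f3 : ℝ) - 144179 + u 2 1) / 65536 := by
    simp only [hu, al, hf3]; norm_num; ring
  have o4 : y 2 2 - al = ((f4 : ℝ) - 144179 + u 2 2) / 65536 := by
    simp only [hu, al, hf4]; norm_num; ring
  clear hf1 hf2 hf3 hf4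
  rw [d1, d2, d3, d4, o1, o2, o3, o4] at hm
  simp only [div_eq_inv_mul _ (65536 : ℝ), Q9_smul] at hm
  have hm2 := le_of_mul_le_mul_left hm (by positivity)
  rw [Q9_add, Q9_add, Q9_smul] at hm2
  have hσ2 : σ ^ 2 = 1 := by rcases hs with e | e <;> rw [e] <;> norm_num
  rw [hσ2, one_mul] at hm2
  have hq := Q9_cross (u i0 j0) (u i0 j1) (u i0 j2) (u i1 j0) (u i1 j1) (u i1 j2) (u i2 j0)
    (u i2 j1) (u i2 j2)
  have hp := Q9_nonneg (u 1 1) (u 1 2) (u 2 1) (u 2 2)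
  have G1 := gg_cast (a := f1) (b := f4) (p := f2) (q := f3) (by omega)
  have G2 := gg_cast (a := f2) (b := f3) (p := f1) (q := f4) (by omega)
  have G3 := gg_cast (a := f3) (b := f2) (p := f1) (q := f4) (by omega)
  have G4 := gg_cast (a := f4) (b := f1) (p := f2) (q := f3) (by omega)
  rw [← G1, ← G2, ← G3, ← G4] at hm2
  generalize gg f1 f4 f2 f3 = g1 at hm2 h
  generalize gg f2 f3 f1 f4 = g2 at hm2 h
  generalize gg f3 f2 f1 f4 = g3 at hm2 h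
  generalize gg f4 f1 f2 f3 = g4 at hm2 h
  have hc := (Nat.cast_lt (α := ℝ)).2 h
  simp only [blk, own, Nat.add_eq, Nat.mul_eq, Nat.cast_add, q9_cast] at hc
  have T := fun (a j : Fin 6) (p n : ℕ) =>
    tm_ge s (sel g1 g2 g3 g4 (6 * a + j)) (r (6 * a + j)) p n (hb a j)
  have T00 := T i0 j0 (e1 + e2 + e3 + e4) 131072
  have T01 := T i0 j1 (e2 + e4 + 65536) (2 * (e1 + e3))
  have T02 := T i0 j2 (e1 + e3 + 65536) (2 * (e2 + e4))
  have T10 := T i1 j0 (e3 + e4 + 65536) (2 * (e1 + e2))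
  have T11 := T i1 j1 (4 * e1 + e4) (2 * (e2 + e3) + 32768)
  have T12 := T i1 j2 (4 * e2 + e3) (2 * (e1 + e4) + 32768)
  have T20 := T i2 j0 (e1 + e2 + 65536) (2 * (e3 + e4))
  have T21 := T i2 j1 (4 * e3 + e2) (2 * (e1 + e4) + 32768)
  have T22 := T i2 j2 (4 * e4 + e1) (2 * (e2 + e3) + 32768)
  rw [← hσ, sub_mul, sel_mul] at T00 T01 T02 T10 T11 T12 T20 T21 T22
  have U1 := tq_ge (an (mem i0 i1 i2 1) (mem j0 j1 j2 1)) g1 (r 7) (hb 1 1)
  have U2 := tq_ge (an (mem i0 i1 i2 1) (mem j0 j1 j2 2)) g2 (r 8) (hb 1 2)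
  have U3 := tq_ge (an (mem i0 i1 i2 2) (mem j0 j1 j2 1)) g3 (r 13) (hb 2 1)
  have U4 := tq_ge (an (mem i0 i1 i2 2) (mem j0 j1 j2 2)) g4 (r 14) (hb 2 2)
  rw [an_ite, ← mem_sum a1 a2 a3, ← mem_sum b1 b2 b3] at U1 U2 U3 U4
  push_cast at T00 T01 T02 T10 T11 T12 T20 T21 T22 hc hm2
  linarith

theorem cmpK_sound {c r : ℕ → ℕ} {s : Bool} {i0 i1 i2 j0 j1 j2 : ℕ} {y : Ph}
    (h : cmpK c r s i0 i1 i2 j0 j1 j2 = true) (hN : Norm y) (hB : InBox y c r) : False := by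
  simp only [cmpK, an_iff] at h
  obtain ⟨hI, hJ, h⟩ := h
  obtain ⟨l0, l1, l2, a1, a2, a3⟩ := trip_spec hI
  obtain ⟨m0, m1, m2, b1, b2, b3⟩ := trip_spec hJ
  lift i0 to Fin 6 using l0
  lift i1 to Fin 6 using l1
  lift i2 to Fin 6 using l2
  lift j0 to Fin 6 using m0
  lift j1 to Fin 6 using m1
  lift j2 to Fin 6 using m2
  exact cmp2_sound rfl rfl rfl rfl a1 a2 a3 b1 b2 b3 h hN hB

theorem cmpOK_sound {c r : ℕ → ℕ} {h : ℕ} {y : Ph} (hc : cmpOK c r h = true) (hN : Norm y)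
    (hB : InBox y c r) : False := cmpK_sound hc hN hB

theorem permOK_spec {h : ℕ} (hp : permOK h = true) :
    ∃ s : Equiv.Perm (Fin 6), ∀ a : Fin 6, (s a : ℕ) = dg h a := by
  simp only [permOK, Nat.beq_eq] at hp
  have hb : ∀ k, Nat.testBit 63 k = true ↔ ∃ a : Fin 6, dg h a = k := by
    intro k
    rw [← hp]
    simp only [Nat.lor_eq, Nat.shiftLeft_eq', Nat.one_shiftLeft, Nat.testBit_or,
      Nat.testBit_two_pow, Bool.or_eq_true, decide_eq_true_eq, Fin.exists_fin_succ,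
      Fin.exists_fin_zero, or_false, or_assoc]
    rfl
  have hl : ∀ a : Fin 6, dg h a < 6 := by
    intro a
    have := (hb _).2 ⟨a, rfl⟩
    rw [show (63 : ℕ) = 2 ^ 6 - 1 by norm_num, Nat.testBit_two_pow_sub_one] at this
    exact of_decide_eq_true this
  have hs : Function.Surjective fun a : Fin 6 => (⟨dg h a, hl a⟩ : Fin 6) := by
    intro k
    obtain ⟨a, ha⟩ := (hb k).1 (by revert k; decide)
    exact ⟨a, Fin.ext ha⟩
  exact ⟨Equiv.ofBijective _ (Finite.surjective_iff_bijective.1 hs), fun a => rfl⟩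

theorem s6_cast (f : ℕ → ℕ) : ((s6 f : ℕ) : ℝ) = ∑ a : Fin 6, (f a : ℝ) := by
  simp only [s6, add_cast, Fin.sum_univ_six]
  rfl

theorem mod_spec (A : ℕ) : ∃ n : ℤ, ((Nat.mod A 65536 : ℕ) : ℝ) = (A : ℝ) - 65536 * n := by
  refine ⟨(A / 65536 : ℕ), ?_⟩
  have := Nat.mod_add_div A 65536
  change ((A % 65536 : ℕ) : ℝ) = _
  generalize A / 65536 = q at this ⊢
  generalize A % 65536 = m at this ⊢
  have h2 : ((m + 65536 * q : ℕ) : ℝ) = (A : ℝ) := by rw [this]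
  push_cast at h2 ⊢
  linarith

/-- the box is close to `z` when `v` is the centre minus `z` up to integers. -/
theorem near2_sound {c r : ℕ → ℕ} {v : ℕ → ℕ → ℕ} {D : ℕ} {y z : Ph}
    (h : near2 (uu v) r D = true) (hB : InBox y c r)
    (hv : ∀ a j : Fin 6, ∃ k : ℤ, (v a j : ℝ) = c (6 * a + j) - 65536 * z a j + 65536 * k) :
    Near y z (D / 2 ^ 32) := by
  choose k hk using hv
  have hu : ∀ a j : Fin 6, ∃ n : ℤ, (uu v a j : ℝ) =
      v a j + v 0 0 - v a 0 - v 0 j + 32768 - 65536 * n := by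
    intro a j
    obtain ⟨n, hn⟩ := mod_spec (v a j + v 0 0 + 65535 * (v a 0 + v 0 j) + 32768)
    refine ⟨n - (v a 0 + v 0 j : ℕ), hn.trans ?_⟩
    push_cast
    ring
  choose n hn using hu
  set U := uu v with hU
  simp only [near2, Nat.ble_eq] at h
  have h1 := (Nat.cast_le (α := ℝ)).2 h
  simp only [s6_cast, zr, zz, mul_cast, add_cast, sq_cast, dst_cast] at h1
  set T : ℝ := ∑ a : Fin 6, (rs U a : ℝ) with hT
  refine ⟨fun a => (v a 0 - v 0 0 - 32768 + (rs U a : ℝ) / 6 - T / 36) / 65536,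
    fun j => (v 0 j + (cs U j : ℝ) / 6) / 65536, fun a j => n a j - k a j - 2, ?_⟩
  rw [le_div_iff₀ (by positivity), nsq, sum_mul]
  refine le_of_mul_le_mul_left (a := 1296) ?_ (by norm_num)
  refine le_trans ?_ (by exact_mod_cast h1)
  rw [mul_sum]
  refine sum_le_sum fun a _ => ?_
  rw [sum_mul, mul_sum]
  refine sum_le_sum fun j _ => ?_
  have hb := hB.scaled a j
  have e : 1296 * ((y a j - z a j - (v a 0 - v 0 0 - 32768 + (rs U a : ℝ) / 6 - T / 36) / 65536 -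
      (v 0 j + (cs U j : ℝ) / 6) / 65536 - ((n a j - k a j - 2 : ℤ) : ℝ)) ^ 2 * 2 ^ 32) =
      ((36 * (U a j : ℝ) + T - 6 * (rs U a + cs U j)) +
        36 * (65536 * y a j + 131072 - c (6 * a + j))) ^ 2 := by
    rw [hn, hk a j]
    push_cast
    ring
  rw [e, ← sq_abs]
  refine pow_le_pow_left₀ (abs_nonneg _) ((abs_add_le _ _).trans ?_) 2
  rw [abs_mul, abs_of_pos (by norm_num : (0 : ℝ) < 36)]
  push_cast
  have : ((r ((Nat.mul 6 (a : ℕ)).add j) : ℕ) : ℝ) = r (6 * a + j) := rfl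
  linarith

theorem nearK_sound {c r x : ℕ → ℕ} {s t D : ℕ} {n tr : Bool} {y : Ph}
    (h : nearK c r x s t n tr D = true) (hB : InBox y c r) :
    ∃ g, Near y (act g fun a j => (x (6 * a + j) : ℝ) / 65536) (D / 2 ^ 32) := by
  simp only [nearK, an_iff] at h
  obtain ⟨h1, h2, h3⟩ := h
  obtain ⟨σ, hσ⟩ := permOK_spec h1
  obtain ⟨τ, hτ⟩ := permOK_spec h2
  refine ⟨⟨σ, τ, n, tr⟩, near2_sound h3 hB fun a j => ?_⟩
  simp only [vv, ch_eq, act, ← hσ, ← hτ, Nat.add_eq, Nat.mul_eq]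
  cases n <;> cases tr
  · refine ⟨x (6 * σ a + τ j), ?_⟩
    simp; ring
  · refine ⟨x (6 * σ j + τ a), ?_⟩
    simp; ring
  · refine ⟨0, ?_⟩
    simp; ring
  · refine ⟨0, ?_⟩
    simp; ring

/-- the leaf rule: `X c v` is the phase (in `1 / 65536` turn) of the centre `c` at `v`. -/
theorem nearOK_sound {ι : Type*} (X : ι → ℕ → ℕ) (i : ι) {c r : ℕ → ℕ} {h D : ℕ} {y : Ph}
    (hc : nearOK c r (X i) h D = true) (hB : InBox y c r) :
    Goal (fun i a j => (X i (6 * a + j) : ℝ) / 65536) (D / 2 ^ 32) y := by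
  obtain ⟨g, hg⟩ := nearK_sound hc hB
  exact Goal.of_near (c := i) hg

end Vale.Agent.N355.A1
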