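import Vale.Agent.N355.C1T
import Vale.Agent.N355.C1T2Core

/-! Soundness of the covering by caps with one radius for each unit. -/

namespace Vale.Agent.N355.C1.T

open Vale.Agent.N355.Lane Vale.Agent.N355.Trig Complex Finset

variable {n : ℕ}

theorem chk2_sound {o X tau : ℕ} {Ec h1 h2 a1 a2 b1 b2 nm nb : ℕ → ℕ} {U : ℕ → ℕ}
    {θ : ℕ → ℕ} (ho : Rp n o fun _ => 1) (ht : tau ≤ 65536)
    (k1 : ∀ i, h1 i < 4096) (k2 : ∀ i, h2 i < 4096) (k3 : ∀ i, a1 i < 4096)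
    (k4 : ∀ i, a2 i < 4096) (k5 : ∀ i, b1 i < 4096) (k6 : ∀ i, b2 i < 4096)
    (k7 : ∀ i, nm i < 4096) (k8 : ∀ i, nb i < 4096)
    (hU : ∀ a, U a = pk 48 n fun i => c14 (fld (θ i) 16 a) + s14 (fld (θ i) 16 a) <<< 24)
    (h : chk2 o (Nat.mul o 65535) X tau (pk 48 n fun i => ce (Ec i)) (pk 48 n h1) (pk 48 n h2) (pk 48 n a1) (pk 48 n a2)
      (pk 48 n b1) (pk 48 n b2) (pk 48 n nm) (pk 48 n nb) U = true)
    {w v : V6} (hw : Cap (ang X) w (tau / 2 ^ 16)) (hv : Cv w v) :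
    ∃ i < n, Cap (ang (θ i)) v (Ec i / 2 ^ 16) := by
  obtain ⟨n1, g⟩ := band_spec h
  obtain ⟨n2, g⟩ := band_spec g
  have n1 := nrm_spec ho k1 k2 k7 n1
  have n2 := nrm_spec ho k5 k6 k8 n2
  let r : ℕ → ℕ → ℤ := fun a i => zr (h1 i) (h2 i) (a1 i) (b1 i) (b2 i) (c14 (fld (θ i) 16 a))
    (s14 (fld (θ i) 16 a)) (c14 (fld X 16 a)) (s14 (fld X 16 a))
  let j : ℕ → ℕ → ℤ := fun a i => zi (h1 i) (h2 i) (a2 i) (b1 i) (b2 i) (c14 (fld (θ i) 16 a))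
    (s14 (fld (θ i) 16 a)) (c14 (fld X 16 a)) (s14 (fld X 16 a))
  have hr : ∀ a, ∀ i < n, |r a i| ≤ 167772160 := fun a i _ =>
    zr_bd (k1 i) (k2 i) (k3 i) (k5 i) (k6 i) (c14_le _) (s14_le _) (c14_le _) (s14_le _)
  have hj : ∀ a, ∀ i < n, |j a i| ≤ 167772160 := fun a i _ =>
    zi_bd (k1 i) (k2 i) (k4 i) (k5 i) (k6 i) (c14_le _) (s14_le _) (c14_le _) (s14_le _)
  have hf := fun a => fl_cs ho (fun i => c14_le (fld (θ i) 16 a)) fun i => s14_le (fld (θ i) 16 a)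
  have hR : ∀ a, Rp n (cR o (Nat.mul o 65535) (pk 48 n h1) (pk 48 n h2) (pk 48 n a1) (pk 48 n b1)
      (pk 48 n b2) X (U a) a) fun i => r a i + 268435456 := fun a => by
    unfold cR
    rw [hU, (hf a).1, (hf a).2]
    exact qr_rp ho k1 k2 k3 k5 k6 (fun _ => c14_le _) (fun _ => s14_le _) (c14_le _) (s14_le _)
  have hI : ∀ a, Rp n (cI o (Nat.mul o 65535) (pk 48 n h1) (pk 48 n h2) (pk 48 n a2) (pk 48 n b1)
      (pk 48 n b2) X (U a) a) fun i => j a i + 268435456 := fun a => by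
    unfold cI
    rw [hU, (hf a).1, (hf a).2]
    exact qi_rp ho k1 k2 k4 k5 k6 (fun _ => c14_le _) (fun _ => s14_le _) (c14_le _) (s14_le _)
  obtain ⟨cE, hcE, hE0, hE1⟩ : ∃ cE : ℕ → ℕ, (fun i => ce (Ec i)) = (fun i => cE i + 156000) ∧
      (∀ i, cE i ≤ 1610612736) ∧ ∀ i, 1610612736 * 32 ≤ cE i * 32 + Ec i * Ec i :=
    ⟨fun i => 1610612736 - (Ec i * Ec i) >>> 5, rfl, fun i => Nat.sub_le _ _,
      fun i => by beta_reduce; rw [Nat.shiftRight_eq_div_pow]; omega⟩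
  rw [hcE] at g
  have hm : Rp n (mulL o (pk 48 n fun i => cE i + 156000) (pk 48 n nm))
      fun i => (nm i : ℤ) * ((cE i + 156000 : ℕ) : ℤ) := by
    rw [ho.one, mulL_pk (fun i _ => by have := hE0 i; omega) fun i _ => k7 i]
    exact ⟨_, rfl, fun i _ => by push_cast; ring⟩
  have b1' : ∀ i, (nm i : ℤ) * ((cE i + 156000 : ℕ) : ℤ) ≤ 4096 * 1610768736 := fun i =>
    mul_le_mul (by exact_mod_cast (k7 i).le)
      (by exact_mod_cast Nat.add_le_add_right (hE0 i) 156000) (by positivity) (by norm_num)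
  have b2' : ∀ i, (nb i : ℤ) * ((tau * 10034 + 156000 : ℕ) : ℤ) ≤ 4096 * 657744224 := fun i =>
    mul_le_mul (by exact_mod_cast (k8 i).le)
      (by push_cast; linarith [show (tau : ℤ) ≤ 65536 by exact_mod_cast ht]) (by positivity) (by norm_num)
  obtain ⟨t, et, htv⟩ := (((hR 0).mul 16384).add (ho.mul 92358726733184)).sub
    (hm.add ((Rp.of_pk nb).mul (tau * 10034 + 156000)))
    fun i hi => by
      have := abs_le.1 (hr 0 i hi); have := b1' i; have := b2' i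
      omega
  have hb : ∀ i < n, t i ≤ 109951162777600 := fun i hi => by
    have := abs_le.1 (hr 0 i hi)
    have h1 : (0 : ℤ) ≤ (nm i : ℤ) * ((cE i + 156000 : ℕ) : ℤ) := by positivity
    have h2 : (0 : ℤ) ≤ (nb i : ℤ) * ((tau * 10034 + 156000 : ℕ) : ℤ) :=
      mul_nonneg (Int.natCast_nonneg _) (Int.natCast_nonneg _)
    have := htv i hi
    beta_reduce at this
    omega
  let u : V6 := fun a => Int.fract (v a - v 0)
  have st := fun (a : ℕ) (b : Fin 6) (m : ℕ) => mkCo_st ho (hR a) (hI a) (hr a) (hj a)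
    (u := u b) (Int.fract_nonneg _) (Int.fract_lt_one _).le m
  unfold run at g
  rw [ho.cst 140737488355328] at g
  obtain ⟨i, hi, fire⟩ := go_sound hb 80 0 _ _ _ _ _ 0 0 0 0 0 0 0 0 0 0 0 _ rfl (st 1 1 _)
    (st 2 2 _) (st 3 3 _) (st 4 4 _) (st 5 5 _) (by rw [← et, zero_mul, add_zero]; rfl) g
  refine ⟨i, hi, ?_⟩
  have hn : ∀ c : V6, ‖ip c u‖ = ‖ip c v‖ := fun c => by
    rw [ip_shift c v c u 0 0 (-v 0) (fun _ => 0) (fun a => -⌊v a - v 0⌋) (fun a => by simp)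
      (fun a => by simp only [u, Int.fract, Pi.zero_apply]; push_cast; ring), norm_mul, norm_E,
      one_mul]
  have h3 := ip_le (by positivity) hw hv.2
  rw [← hn] at h3
  have htv' := congrArg (Int.cast : ℤ → ℝ) (htv i hi)
  push_cast at htv'
  have fin := final_real ⟨((h1 i : ℤ) - 2048 : ℤ), ((h2 i : ℤ) - 2048 : ℤ)⟩
    ⟨((a1 i : ℤ) - 2048 : ℤ), ((a2 i : ℤ) - 2048 : ℤ)⟩
    ⟨((b1 i : ℤ) - 2048 : ℤ), ((b2 i : ℤ) - 2048 : ℤ)⟩ (fun a => fld X 16 a)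
    (fun a => fld (θ i) 16 a) u (fun a => ⟨r a i, j a i⟩)
    (fun a => by apply Complex.ext <;> simp [r, j, zr, zi, zt] <;> ring)
    (norm_le_int (by positivity) (n1 i hi)) (norm_le_int (by positivity) (n2 i hi))
    ((norm_le_int (c := 2897) (by norm_num) (by
      have := mul_bd (abs12 (k3 i)) (abs12 (k3 i)); have := mul_bd (abs12 (k4 i)) (abs12 (k4 i))
      rw [sq, sq]; omega)).trans (by norm_num))
    (cE := cE i) (by positivity) (norm_eq_zero.1 (by rw [hn, hv.1, norm_zero])) h3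
    (by simp [u]) (by
      rw [Fin.sum_univ_five]
      simp only [mkCo, bnd] at fire
      push_cast
      have e : (tau : ℝ) * 10034 = 268435456 * (10034 / 4096 * (tau / 2 ^ 16)) := by ring
      rw [e] at htv'
      exact le_of_le_of_eq (by linarith) (rfl : (16384 : ℝ) * (r 0 i : ℝ) +
        (16384 * ((⟨r 1 i, j 1 i⟩ : ℂ) * E (u 1)).re + 1.023 * ‖(⟨r 1 i, j 1 i⟩ : ℂ)‖ + 914 +
        (16384 * ((⟨r 2 i, j 2 i⟩ : ℂ) * E (u 2)).re + 1.023 * ‖(⟨r 2 i, j 2 i⟩ : ℂ)‖ + 914) +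
        (16384 * ((⟨r 3 i, j 3 i⟩ : ℂ) * E (u 3)).re + 1.023 * ‖(⟨r 3 i, j 3 i⟩ : ℂ)‖ + 914) +
        (16384 * ((⟨r 4 i, j 4 i⟩ : ℂ) * E (u 4)).re + 1.023 * ‖(⟨r 4 i, j 4 i⟩ : ℂ)‖ + 914) +
        (16384 * ((⟨r 5 i, j 5 i⟩ : ℂ) * E (u 5)).re + 1.023 * ‖(⟨r 5 i, j 5 i⟩ : ℂ)‖ + 914))
        = _))
  rw [hn] at fin
  have hE : (1610612736 : ℝ) * 32 ≤ cE i * 32 + Ec i * Ec i := by
    exact_mod_cast hE1 i
  have e : ((Ec i : ℝ) / 2 ^ 16) ^ 2 = Ec i * Ec i / 4294967296 := by ring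
  unfold Cap
  rw [e]
  exact le_trans (by linarith) (le_of_mul_le_mul_left (a := 268435456)
    (le_of_eq_of_le (by ring : 268435456 * ((cE i : ℝ) / 268435456) = cE i) fin) (by norm_num))

/-- soundness of the check: the curve is covered by the caps. -/
theorem treeOK2_sound {X tau EC n TH m G H1 H2 : ℕ}
    (h : treeOK2 X tau EC n TH m G H1 H2 = true)
    {w v : V6} (hw : Cap (ang X) w (tau / 2 ^ 16)) (hv : Cv w v) :
    ∃ j < n, Cap (ang (th TH j)) v (fld EC 20 j / 2 ^ 16) := by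
  obtain ⟨hn, g⟩ := band_spec h
  obtain ⟨ht, g⟩ := band_spec g
  have ho : Rp (tot G m) (gat G (fun _ => 1) m) fun _ => 1 := ⟨_, gat_eq G _ m, fun _ _ => rfl⟩
  obtain ⟨h1, e1, k1⟩ := fl_hint ho H2 0
  obtain ⟨h2, e2, k2⟩ := fl_hint ho H2 12
  obtain ⟨a1, e3, k3⟩ := fl_hint ho H1 0
  obtain ⟨a2, e4, k4⟩ := fl_hint ho H1 12
  obtain ⟨b1, e5, k5⟩ := fl_hint ho H1 24
  obtain ⟨b2, e6, k6⟩ := fl_hint ho H1 36
  obtain ⟨nm, e7, k7⟩ := fl_hint ho H2 24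
  obtain ⟨nb, e8, k8⟩ := fl_hint ho H2 36
  unfold chkH2 at g
  rw [gat_eq G (fun g => ce (fld EC 20 (uni n G g))), e1, e2, e3, e4, e5, e6, e7, e8] at g
  have hU : ∀ a, ucs n TH G m a = pk 48 (tot G m) fun i =>
      c14 (fld (th TH (uni n G (grp G m i))) 16 a)
        + s14 (fld (th TH (uni n G (grp G m i))) 16 a) <<< 24 := fun a =>
    gat_eq G (fun g => cs (fld (th TH (uni n G g)) 16 a)) m
  obtain ⟨i, -, hc⟩ := chk2_sound (θ := fun i => th TH (uni n G (grp G m i)))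
    (Ec := fun i => fld EC 20 (uni n G (grp G m i))) ho
    (Nat.le_of_ble_eq_true ht) k1 k2 k3 k4 k5 k6 k7 k8 hU g hw hv
  exact ⟨_, Nat.mod_lt _ (Nat.le_of_ble_eq_true hn), hc⟩

end Vale.Agent.N355.C1.T
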