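import Vale.Agent.N355.C1VCore
import Vale.Agent.N355.C1S
import Vale.Agent.N355.C1T2

/-! Soundness of the checks for units with their own radii. -/

namespace Vale.Agent.N355.C1

open Finset

/-- a cut of the power diagram. -/
theorem cut_le2 {c c' v : V6} {φ ψ δ : ℝ} {d : Fin 6 → ℂ} (h : Dec c v φ d)
    (hm : ‖ip c' v‖ ≤ ‖ip c v‖ + δ) {gr gi : V6}
    (hg : ∀ a, Ap (E (c a - c' a + ψ)) (gr a) (gi a)) :
    -∑ a, gi a * (d a).im ≤ 6 - ∑ a, gr a + 60 / 2 ^ 32 + δ := by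
  have h1 : ∑ a, E (c a - c' a + ψ) * (1 + d a) = E (ψ - φ) * ip c' v := by
    unfold ip
    rw [mul_sum]
    refine sum_congr rfl fun a _ => ?_
    rw [← h.eq, ← E_add, ← E_add]
    congr 1
    ring
  have h2 := Complex.re_le_norm (∑ a, E (c a - c' a + ψ) * (1 + d a))
  rw [h1, norm_mul, norm_E, one_mul, ← h1, Complex.re_sum] at h2
  have h3 := h.sq
  have h4 : ∀ a, gr a - gi a * (d a).im - Complex.normSq (d a) / 2 - 10 / 2 ^ 32
      ≤ (E (c a - c' a + ψ) * (1 + d a)).re := fun a => by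
    simp only [Complex.mul_re, Complex.add_re, Complex.add_im, Complex.one_re, Complex.one_im,
      h.re, zero_add]
    have a1 := abs_le.1 (hg a).re
    have a2 : |((E (c a - c' a + ψ)).im - gi a) * (d a).im| ≤ 5 / 2 ^ 32 * 1 := by
      rw [abs_mul]
      exact mul_le_mul (hg a).im (h.abs_im_le a) (abs_nonneg _) (by norm_num)
    have a3 := abs_le.1 a2
    have a4 : (E (c a - c' a + ψ)).re ≤ 1 := (Complex.re_le_norm _).trans (norm_E _).le
    have a5 := mul_le_mul_of_nonneg_right a4 (Complex.normSq_nonneg (d a))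
    linarith
  have h5 := sum_le_sum fun a (_ : a ∈ univ) => h4 a
  simp only [Fin.sum_univ_six] at h2 h3 h5 ⊢
  linarith

/-- half the square of a radius. -/
noncomputable def hq (e : ℕ) : ℝ := ((e : ℝ) / 2 ^ 16) ^ 2 / 2

theorem cutW_sound {c c' p l a e e' : ℕ} (h : cutW c c' p l a e e' = true) :
    0 < (l : ℝ) / 2 ^ 14 ∧ 6 - ∑ b : Fin 6, tv (dr c c' p b) + 60 / 2 ^ 32 + (hq e - hq e')
      ≤ (l : ℝ) / 2 ^ 14 * ((a : ℝ) / 2 ^ 16) := by
  unfold cutW at h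
  simp only [an_iff, ble_cast, add_cast, mul_cast, s6_cast, sq_cast] at h
  obtain ⟨h1, h2⟩ := h
  push_cast at h1 h2
  refine ⟨by positivity, ?_⟩
  unfold tv hq
  simp only [Fin.sum_univ_six] at h2 ⊢
  linarith

section cuts
variable {c c' p l r f f' : ℕ} {v : V6} {φ e : ℝ} {d : Fin 6 → ℂ}

theorem cut3_sound (h : cut3 c c' p l r f f' = true) (hd : Dec (ang c) v φ d)
    (hm : ‖ip (ang c') v‖ ≤ ‖ip (ang c) v‖ + (hq f - hq f'))
    (he : nrm (fun a => (d a).im) ≤ e) :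
    ∑ a : Fin 6, ((f16 r a : ℝ) - 32768) / 16384 * (d a).im
      ≤ (f16 r 37 : ℝ) / 2 ^ 16 + (f16 r 38 : ℝ) / 2 ^ 12 * e := by
  unfold cut3 at h
  obtain ⟨h1, h2⟩ := an_iff.1 h
  obtain ⟨h3, h4⟩ := cutW_sound h1
  have h5 := cut_le2 hd hm (ap_d c c' p)
  refine slab_le (D := fun a => -tv (di c c' p a)) h3 (by positivity) he
    (by simpa only [neg_mul, sum_neg_distrib] using h5) h4 ?_
  simp only [ble_cast, s6_cast, sq_cast, dst_cast, sq_abs, add_cast, mul_cast] at h2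
  refine le_of_scale (c := (2 ^ 30) ^ 2) (by positivity) (le_of_eq_of_le ?_ (h2.trans_eq ?_))
  · rw [mul_sum]
    refine sum_congr rfl fun a _ => ?_
    rw [← mul_pow]
    refine congrArg (· ^ 2) ?_
    unfold tv
    push_cast
    ring
  · push_cast
    ring

theorem cut4_sound (h : cut4 c c' p l r f f' = true) (hd : Dec (ang c) v φ d)
    (hm : ‖ip (ang c') v‖ ≤ ‖ip (ang c) v‖ + (hq f - hq f'))
    (he : nrm (fun a => (d a).im) ≤ e) :
    ∑ a : Fin 6, -(((f16 r a : ℝ) - 32768) / 16384) * (d a).im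
      ≤ (f16 r 37 : ℝ) / 2 ^ 16 + (f16 r 38 : ℝ) / 2 ^ 12 * e := by
  unfold cut4 at h
  obtain ⟨h1, h2⟩ := an_iff.1 h
  obtain ⟨h3, h4⟩ := cutW_sound h1
  have h5 := cut_le2 hd hm (ap_d c c' p)
  refine slab_le (D := fun a => -tv (di c c' p a)) h3 (by positivity) he
    (by simpa only [neg_mul, sum_neg_distrib] using h5) h4 ?_
  simp only [ble_cast, s6_cast, sq_cast, dst_cast, sq_abs, add_cast, mul_cast] at h2
  refine le_of_scale (c := (2 ^ 30) ^ 2) (by positivity) (le_of_eq_of_le ?_ (h2.trans_eq ?_))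
  · rw [mul_sum]
    refine sum_congr rfl fun a _ => ?_
    rw [← mul_pow]
    refine congrArg (· ^ 2) ?_
    unfold tv
    push_cast
    ring
  · push_cast
    ring

end cuts

/-- soundness of the check of one unit. -/
theorem un3_sound {X tau Ec n TH EC c em r : ℕ}
    (h : un3 X tau Ec n TH EC c (f16 r 30) em r = true) (ht : tau ≤ 65536) {w v : V6} {ψ : ℝ} {η : Fin 6 → ℂ}
    (h' : Dec (ang X) w ψ η) (hη : ∑ a, Complex.normSq (η a) ≤ ((tau : ℝ) / 2 ^ 16) ^ 2)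
    (hv : Cv w v) (hc : Cap (ang c) v (Ec / 2 ^ 16))
    (hm : ∀ j < n, ‖ip (ang (th TH j)) v‖ ≤ ‖ip (ang c) v‖ + (hq Ec - hq (f20 EC j))) :
    InU (ud0 X tau c (f16 r 30) em r) (fun a => (η a).im) v := by
  unfold un3 at h
  obtain ⟨k0, h⟩ := an_iff.1 h
  have hE : Ec ≤ 131072 := Nat.le_of_ble_eq_true k0
  obtain ⟨k1, h⟩ := an_iff.1 h
  obtain ⟨k2, h⟩ := an_iff.1 h
  obtain ⟨k3, h⟩ := an_iff.1 h
  obtain ⟨k4, h⟩ := an_iff.1 h
  obtain ⟨k5, h⟩ := an_iff.1 h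
  obtain ⟨k6, h⟩ := an_iff.1 h
  obtain ⟨k7, h⟩ := an_iff.1 h
  obtain ⟨k8, h⟩ := an_iff.1 h
  obtain ⟨k9, h⟩ := an_iff.1 h
  obtain ⟨k10, h⟩ := an_iff.1 h
  obtain ⟨k11, h⟩ := an_iff.1 h
  obtain ⟨k12, h⟩ := an_iff.1 h
  obtain ⟨k13, k14⟩ := an_iff.1 h
  obtain ⟨φ, d, hd⟩ := exists_dec (ang c) v
  obtain ⟨m1, m2, m3, m4, m5, m6⟩ := moOK_real k4
  rw [nq_y, cx_y] at m1 m2
  rw [nq_t, nq_t, cx_t] at m3
  rw [nq_t, nq_t, cx_t, nq_y] at m4 m5
  rw [nq_t, nq_t, cx_t, nq_y, nq_y, cx_y] at m6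
  obtain ⟨n1, n2, n3, n4⟩ := mo_scale m3 m4 m5 m6
  have ht' : (tau : ℝ) ≤ 65536 := by exact_mod_cast ht
  have hE' : (Ec : ℝ) ≤ 131072 := by exact_mod_cast hE
  have y1 := f16_le r 40
  rw [ble_cast, nq_tan] at k5 k6
  rw [ble_cast] at k11
  push_cast at k5 k6
  refine unit_in (ud0 X tau c (f16 r 30) em r) (Y0 := yv r 6) (Y1 := yv r 12)
    (τ := (tau : ℝ) / 2 ^ 16) (Ec := (Ec : ℝ) / 2 ^ 16) (e0 := (f16 r 44 : ℝ) / 2 ^ 16)
    (μ := (f16 r 43 : ℝ) / 2 ^ 16) (κ := (f16 r 39 : ℝ) / 2 ^ 12) (y := (f16 r 40 : ℝ) / 2 ^ 12)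
    (m := (f16 r 41 : ℝ) / 2 ^ 12) (a := (f16 r 37 : ℝ) / 2 ^ 16) (b := (f16 r 38 : ℝ) / 2 ^ 12)
    (e1 := (f16 r 42 : ℝ) / 2 ^ 16) (h0 := (hz tau r : ℝ) / 2 ^ 45) (h1 := (ho tau r : ℝ) / 2 ^ 28)
    hd h' hv hη (hd.sq_le hc) (ap_c c) (ap_d c X (f16 r 30)) (by positivity) (by linarith)
    (by positivity) (by linarith) (by positivity) (by positivity) (by positivity) (by positivity)
    (by linarith) (by positivity) (by positivity) (by positivity) (by positivity)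
    (by unfold ud0; positivity) (div_le_div_of_nonneg_right k11 (by positivity))
    (yv_le r 6) (yv_le r 12) (by unfold ud0; simp only; linarith)
    (by unfold ud0; simp only; linarith) (fun e he => abs_le.2 ⟨?_, ?_⟩) (muOK_sound k1)
    (e0OK_sound k2) (kaOK_sound k3) ?_ ?_ (fun s hs => ?_) (hz_cast tau r).ge (ho_cast tau r).ge
    (boOK_sound k12) (boOK_sound k13) (boOK_sound k14) (tt_cast r em).ge (ep_cast tau r em).ge
  · have := cut4_sound k10 hd (hm _ (Nat.le_of_ble_eq_true k8)) he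
    simp only [neg_mul, sum_neg_distrib] at this
    unfold ud0
    simp only
    linarith
  · exact cut3_sound k9 hd (hm _ (Nat.le_of_ble_eq_true k7)) he
  · unfold ud0
    simp only
    rw [div_pow]
    linarith
  · unfold ud0
    simp only
    rw [div_pow]
    linarith
  · refine mot_le (A := yv r 18) (B := yv r 24) (g := fun a => -tv (di c X (f16 r 30) a))
      (h := fun a => tv (dr c X (f16 r 30) a)) (by positivity) (by positivity) hs rfl rfl rfl
      ?_ ?_ rfl n1 n2 n3 n4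
    · simp only [neg_sq]
    · simp only [neg_mul, sum_neg_distrib]

/-- soundness of the check of the units with own radii. -/
theorem units3_sound {X tau EC n TH EM : ℕ} {rs : List ℕ}
    (h : unitsOK3 X tau EC n TH EM rs = true) {w v : V6} {ψ : ℝ} {η : Fin 6 → ℂ}
    (h' : Dec (ang X) w ψ η) (hη : ∑ a, Complex.normSq (η a) ≤ ((tau : ℝ) / 2 ^ 16) ^ 2)
    (hv : Cv w v) (hc : ∃ j < n, Cap (ang (th TH j)) v (fld EC 20 j / 2 ^ 16)) :
    ∃ j < n, InU (ud X tau TH EM j (rs.getD j 0)) (fun a => (η a).im) v := by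
  unfold unitsOK3 at h
  obtain ⟨h1, h⟩ := an_iff.1 h
  obtain ⟨j, hj, hc⟩ := hc
  obtain ⟨i, hi, hm⟩ := exists_max (fun k => ‖ip (ang (th TH k)) v‖ + hq (f20 EC k)) hj
  have h3 := (loopL_sound h).2 i hi
  unfold unit3 at h3
  rw [frc_eq] at h3
  have hc' : Cap (ang (th TH i)) v (f20 EC i / 2 ^ 16) := by
    have h4 := hm j hj
    have h5 : 6 - hq (f20 EC j) ≤ ‖ip (ang (th TH j)) v‖ := hc
    show 6 - hq (f20 EC i) ≤ _
    linarith
  refine ⟨i, hi, ?_⟩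
  rcases orr_iff.1 h3 with h3 | h3
  · exact stOK_sound h3 hc'
  · rw [frc_eq, frc_eq] at h3
    refine un3_sound h3 (Nat.le_of_ble_eq_true h1) h' hη hv hc' fun k hk => ?_
    have := hm k hk
    linarith

theorem PD.sound {cen : ℕ → ℕ} {K D0 : ℕ} {p : ℕ × ℕ} (h : PD cen K D0 p) : BallOK cen K D0 p := by
  rcases h with h | ⟨X, tau, EC, n, TH, EM, A, rs, m, G, H1, H2, H, HS, ws, US, hT, hU, hP, hQ⟩
  · exact h.sound
  have e : rs.length = n := (loopL_sound (an_iff.1 hU).2).1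
  refine ball_of_parts (n := n) (fun j => ang (th TH j)) (fun j => (fld EM 16 j : ℝ) / 2 ^ 16)
    (row A n) (fun w j v => InU (ud X tau TH EM j (rs.getD j 0)) (fun a => (disp (ang X) w a).im) v)
    (fun w v hw hv => ?_) (fun w v v' j _ _ h h' => ?_) (fun w v v' i j hw hi hj h h' h0 => ?_)
    fun y j _ hw hj hA hi => ?_
  · obtain ⟨j, hj, h⟩ := units3_sound hU (disp_dec _ w) ((disp_dec _ w).sq_le hw) hv
      (T.treeOK2_sound hT hw hv)
    exact ⟨j, hj, h, h.cap⟩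
  · have := f16_le EM j
    exact not_orth (e := (f16 EM j : ℝ) / 2 ^ 16) (by positivity) (by linarith) h.cap h'.cap
  · exact P.pairs_sound hP hi (e ▸ hj)
      (nrm_im_le _ (by positivity) ((disp_dec _ w).sq_le hw)) h h' h0
  · exact Q.cliqOK_sound hQ hw hj hA fun k l hk hl h e => h (hi k l hk hl e)

end Vale.Agent.N355.C1
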