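import Vale.Agent.N355.Wlog

/-! The normal form used by the coarse covering: the block on rows and columns `0, 1, 2` has
cross phases closest to a fixed target. -/

namespace Vale.Agent.N355

open Finset

/-- some image of `y` is close to one of the centres. -/
def Goal {ι : Type*} (x : ι → Ph) (D : ℝ) (y : Ph) : Prop := ∃ g c, Near (act g y) (x c) D

theorem Goal.of_act {ι : Type*} {x : ι → Ph} {D : ℝ} {y : Ph} {g : Sym}
    (h : Goal x D (act g y)) : Goal x D y := by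
  obtain ⟨f, c, h⟩ := h
  exact ⟨f.comp g, c, by rwa [act_comp] at h⟩

theorem Goal.of_shift {ι : Type*} {x : ι → Ph} {D : ℝ} {y y' : Ph} (h : Goal x D y')
    (r s : V6) (k : Fin 6 → Fin 6 → ℤ) (hy : ∀ a j, y' a j = y a j + r a + s j + k a j) :
    Goal x D y := by
  obtain ⟨f, c, h⟩ := h
  have h1 := h.act f.inv
  rw [inv_act] at h1
  exact ⟨f, c, (h1.shift r s k hy).to_centre⟩

theorem Goal.of_near {ι : Type*} {x : ι → Ph} {D : ℝ} {y : Ph} {g : Sym} {c : ι}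
    (h : Near y (act g (x c)) D) : Goal x D y := ⟨g.inv, c, h.to_centre'⟩

/-- the target phase, about one fifth of a turn. -/
noncomputable def al : ℝ := 13107 / 65536

/-- nine times the squared norm of the doubly centred `3 × 3` block with cross entries
`a b c d`. -/
def Q9 (a b c d : ℝ) : ℝ :=
  a ^ 2 + (b - a) ^ 2 + b ^ 2 + (c - a) ^ 2 + (a - c - b + d) ^ 2 + (b - d) ^ 2 + c ^ 2 +
    (c - d) ^ 2 + d ^ 2

/-- cross phase. -/
def cr (y : Ph) (i0 i j0 j : Fin 6) : ℝ := y i j - y i0 j - y i j0 + y i0 j0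

/-- `m` is a lower bound for the distance of every block to the target. -/
def MinB (y : Ph) (m : ℝ) : Prop :=
  ∀ (i0 i1 i2 j0 j1 j2 : Fin 6) (s : ℝ) (n1 n2 n3 n4 : ℤ), i0 ≠ i1 → i0 ≠ i2 → i1 ≠ i2 →
    j0 ≠ j1 → j0 ≠ j2 → j1 ≠ j2 → (s = 1 ∨ s = -1) →
    |s * cr y i0 i1 j0 j1 - al - n1| < 1 / 2 → |s * cr y i0 i1 j0 j2 + al - n2| < 1 / 2 →
    |s * cr y i0 i2 j0 j1 + al - n3| < 1 / 2 → |s * cr y i0 i2 j0 j2 - al - n4| < 1 / 2 →
    m ≤ Q9 (s * cr y i0 i1 j0 j1 - al - n1) (s * cr y i0 i1 j0 j2 + al - n2)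
      (s * cr y i0 i2 j0 j1 + al - n3) (s * cr y i0 i2 j0 j2 - al - n4)

theorem MinB.shift {y y' : Ph} {m : ℝ} (h : MinB y m) (r s : V6) (k : Fin 6 → Fin 6 → ℤ)
    (hy : ∀ a j, y' a j = y a j + r a + s j + k a j) : MinB y' m := by
  intro i0 i1 i2 j0 j1 j2 e n1 n2 n3 n4 a1 a2 a3 b1 b2 b3 he
  obtain ⟨z, hz⟩ : ∃ z : ℤ, e = z := by
    rcases he with rfl | rfl
    · exact ⟨1, by simp⟩
    · exact ⟨-1, by simp⟩
  have E1 : ∀ (i j : Fin 6) (t : ℝ) (n : ℤ), e * cr y' i0 i j0 j + t - n =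
      e * cr y i0 i j0 j + t - ((n - z * (k i j - k i0 j - k i j0 + k i0 j0) : ℤ) : ℝ) := by
    intro i j t n
    simp only [cr, hy, hz]
    push_cast
    ring
  simp only [sub_eq_add_neg _ al, E1]
  have := h i0 i1 i2 j0 j1 j2 e
  simp only [sub_eq_add_neg _ al] at this
  exact this _ _ _ _ a1 a2 a3 b1 b2 b3 he

theorem Q9_swap (a b c d : ℝ) : Q9 a c b d = Q9 a b c d := by unfold Q9; ring

theorem MinB.act {y : Ph} {m : ℝ} (h : MinB y m) (g : Sym) : MinB (act g y) m := by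
  obtain ⟨s, t, n, r⟩ := g
  intro i0 i1 i2 j0 j1 j2 e n1 n2 n3 n4 a1 a2 a3 b1 b2 b3 he
  have he' : e * (if n then -1 else 1) = 1 ∨ e * (if n then -1 else 1) = -1 := by
    rcases he with rfl | rfl <;> cases n <;> simp
  cases r
  · have E1 : ∀ i j : Fin 6, e * cr (N355.act ⟨s, t, n, false⟩ y) i0 i j0 j =
        e * (if n then -1 else 1) * cr y (s i0) (s i) (t j0) (t j) := by
      intro i j
      simp only [cr, N355.act, Bool.false_eq_true, if_false]
      ring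
    simp only [E1]
    exact h _ _ _ _ _ _ _ n1 n2 n3 n4 (s.injective.ne a1) (s.injective.ne a2) (s.injective.ne a3)
      (t.injective.ne b1) (t.injective.ne b2) (t.injective.ne b3) he'
  · have E1 : ∀ i j : Fin 6, e * cr (N355.act ⟨s, t, n, true⟩ y) i0 i j0 j =
        e * (if n then -1 else 1) * cr y (s j0) (s j) (t i0) (t i) := by
      intro i j
      simp only [cr, N355.act, if_true]
      ring
    simp only [E1]
    intro c1 c2 c3 c4
    rw [Q9_swap]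
    exact h _ _ _ _ _ _ _ n1 n3 n2 n4 (s.injective.ne b1) (s.injective.ne b2) (s.injective.ne b3)
      (t.injective.ne a1) (t.injective.ne a2) (t.injective.ne a3) he' c1 c3 c2 c4

/-- the normal form before sorting. -/
structure Norm0 (y : Ph) : Prop where
  row : ∀ j, y 0 j = 0
  col : ∀ a, y a 0 = 0
  b11 : |y 1 1 - al| ≤ 1 / 2
  b12 : |y 1 2 + al| ≤ 1 / 2
  b21 : |y 2 1 + al| ≤ 1 / 2
  b22 : |y 2 2 - al| ≤ 1 / 2
  min : MinB y (Q9 (y 1 1 - al) (y 1 2 + al) (y 2 1 + al) (y 2 2 - al))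

/-- the normal form; `s = (y11 - al, y22 - al, -(y12 + al), -(y21 + al))` is sorted. -/
structure Norm (y : Ph) : Prop extends Norm0 y where
  s12 : y 2 2 - al ≤ y 1 1 - al
  s34 : -(y 2 1 + al) ≤ -(y 1 2 + al)
  s13 : -(y 1 2 + al) ≤ y 1 1 - al

theorem exists_perm3 {i0 i1 i2 : Fin 6} (a1 : i0 ≠ i1) (a2 : i0 ≠ i2) (a3 : i1 ≠ i2) :
    ∃ s : Equiv.Perm (Fin 6), s 0 = i0 ∧ s 1 = i1 ∧ s 2 = i2 := by
  have hf : Function.Injective (![0, 1, 2] : Fin 3 → Fin 6) := by decide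
  have hg : Function.Injective (![i0, i1, i2] : Fin 3 → Fin 6) := by
    intro a b
    fin_cases a <;> fin_cases b <;> simp [a1, a2, a3, a1.symm, a2.symm, a3.symm]
  obtain ⟨s, hs⟩ := Equiv.Perm.exists_extending_pair _ _ hf hg
  exact ⟨s, hs 0, hs 1, hs 2⟩

/-- reduction to `[-1/2, 1/2]`. -/
noncomputable def red (x : ℝ) : ℝ := x - round x

theorem red_eq {x : ℝ} {n : ℤ} (h : |x - n| < 1 / 2) : red x = x - n := by
  have h1 := abs_lt.1 h
  have : round x = n := by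
    rw [round_eq, Int.floor_eq_iff]
    constructor <;> linarith [h1.1, h1.2]
  rw [red, this]

/-- the value minimised over the orbit. -/
noncomputable def phi0 (y : Ph) : ℝ :=
  Q9 (red (cr y 0 1 0 1 - al)) (red (cr y 0 1 0 2 + al)) (red (cr y 0 2 0 1 + al))
    (red (cr y 0 2 0 2 - al))

theorem minB_of_min {y : Ph} (h : ∀ g : Sym, phi0 y ≤ phi0 (act g y)) : MinB y (phi0 y) := by
  intro i0 i1 i2 j0 j1 j2 e n1 n2 n3 n4 a1 a2 a3 b1 b2 b3 he c1 c2 c3 c4
  obtain ⟨s, s0, s1, s2⟩ := exists_perm3 a1 a2 a3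
  obtain ⟨t, t0, t1, t2⟩ := exists_perm3 b1 b2 b3
  obtain ⟨n, hn⟩ : ∃ n : Bool, e = if n then -1 else 1 := by
    rcases he with rfl | rfl
    · exact ⟨false, by simp⟩
    · exact ⟨true, by simp⟩
  have E1 : ∀ i j : Fin 6, cr (act ⟨s, t, n, false⟩ y) 0 i 0 j = e * cr y i0 (s i) j0 (t j) := by
    intro i j
    simp only [cr, act, Bool.false_eq_true, if_false, hn, s0, t0]
    ring
  have := h ⟨s, t, n, false⟩
  rw [phi0.eq_1 (act _ y), E1, E1, E1, E1, s1, s2, t1, t2, red_eq c1, red_eq c2, red_eq c3,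
    red_eq c4] at this
  exact this

/-- centre of the admissible interval of each entry. -/
noncomputable def tau (a j : Fin 6) : ℝ :=
  if a = 0 ∨ j = 0 then 0 else if (a = 1 ∧ j = 1) ∨ (a = 2 ∧ j = 2) then al
  else if (a = 1 ∧ j = 2) ∨ (a = 2 ∧ j = 1) then -al else 1 / 2

theorem exists_norm0 {ι : Type*} (x : ι → Ph) (D : ℝ) {y0 : Ph} (h : Had y0) :
    ∃ y, Had y ∧ Norm0 y ∧ (Goal x D y → Goal x D y0) := by
  obtain ⟨g, hg⟩ := exists_min phi0 y0
  set y1 := act g y0 with hy1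
  have hM := minB_of_min hg
  set y : Ph := fun a j => deph y1 a j - round (deph y1 a j - tau a j) with hy
  have e : ∀ a j, y a j = y1 a j + (y1 0 0 - y1 a 0) + (-y1 0 j) +
      ((-round (deph y1 a j - tau a j) : ℤ) : ℝ) := by
    intro a j
    simp only [hy, deph]
    push_cast
    ring
  have e2 : ∀ a j, y a j - tau a j = red (cr y1 0 a 0 j - tau a j) := by
    intro a j
    have : cr y1 0 a 0 j = deph y1 a j := by simp only [cr, deph]; ring
    simp only [hy, red, this]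
    ring
  have t11 : tau 1 1 = al := by simp [tau]
  have t22 : tau 2 2 = al := by simp [tau]
  have t12 : tau 1 2 = -al := by simp [tau]
  have t21 : tau 2 1 = -al := by simp [tau]
  have f11 := e2 1 1
  have f12 := e2 1 2
  have f21 := e2 2 1
  have f22 := e2 2 2
  rw [t11] at f11
  rw [t22] at f22
  rw [t12, sub_neg_eq_add, sub_neg_eq_add] at f12
  rw [t21, sub_neg_eq_add, sub_neg_eq_add] at f21
  refine ⟨y, (h.act g).shift _ _ _ e, ⟨fun j => ?_, fun a => ?_, ?_, ?_, ?_, ?_, ?_⟩,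
    fun hG => (hG.of_shift _ _ _ e).of_act⟩
  · simp [hy, deph_row, tau]
  · simp [hy, deph_col, tau]
  · rw [f11]; exact abs_sub_round _
  · rw [f12]; exact abs_sub_round _
  · rw [f21]; exact abs_sub_round _
  · rw [f22]; exact abs_sub_round _
  · rw [f11, f12, f21, f22]
    exact hM.shift _ _ _ e

/-- transposition. -/
def sT : Sym := ⟨1, 1, false, true⟩

/-- swap rows `1, 2` and columns `1, 2`. -/
def sS : Sym := ⟨Equiv.swap 1 2, Equiv.swap 1 2, false, false⟩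

/-- swap rows `1, 2` and conjugate. -/
def sN : Sym := ⟨Equiv.swap 1 2, 1, true, false⟩

theorem sT_eq (y : Ph) (a j : Fin 6) : act sT y a j = y j a := by simp [act, sT]

theorem sS_eq (y : Ph) (a j : Fin 6) :
    act sS y a j = y (Equiv.swap 1 2 a) (Equiv.swap 1 2 j) := by simp [act, sS]

theorem sN_eq (y : Ph) (a j : Fin 6) : act sN y a j = -y (Equiv.swap 1 2 a) j := by
  simp [act, sN]

theorem sw0 : Equiv.swap (1 : Fin 6) 2 0 = 0 := by decide

theorem sw1 : Equiv.swap (1 : Fin 6) 2 1 = 2 := by decide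

theorem sw2 : Equiv.swap (1 : Fin 6) 2 2 = 1 := by decide

theorem Norm0.sT {y : Ph} (h : Norm0 y) : Norm0 (act sT y) := by
  refine ⟨fun j => ?_, fun j => ?_, ?_, ?_, ?_, ?_, ?_⟩ <;> simp only [sT_eq]
  exacts [h.col j, h.row j, h.b11, h.b21, h.b12, h.b22, by rw [Q9_swap]; exact h.min.act _]

theorem Norm0.sS {y : Ph} (h : Norm0 y) : Norm0 (act sS y) := by
  refine ⟨fun j => ?_, fun j => ?_, ?_, ?_, ?_, ?_, ?_⟩ <;> simp only [sS_eq, sw0, sw1, sw2]
  exacts [h.row _, h.col _, h.b22, h.b21, h.b12, h.b11, by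
    have := h.min.act N355.sS
    convert this using 1
    unfold Q9; ring]

theorem Norm0.sN {y : Ph} (h : Norm0 y) : Norm0 (act sN y) := by
  refine ⟨fun j => ?_, fun j => ?_, ?_, ?_, ?_, ?_, ?_⟩ <;> simp only [sN_eq, sw0, sw1, sw2]
  · rw [h.row, neg_zero]
  · rw [h.col, neg_zero]
  · rw [← abs_neg]; convert h.b21 using 2; ring
  · rw [← abs_neg]; convert h.b22 using 2; ring
  · rw [← abs_neg]; convert h.b11 using 2; ring
  · rw [← abs_neg]; convert h.b12 using 2; ring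
  · have := h.min.act N355.sN
    convert this using 1
    unfold Q9; ring

theorem exists_norm1 {ι : Type*} (x : ι → Ph) (D : ℝ) {y0 : Ph} (h : Had y0) :
    ∃ y, Had y ∧ Norm y ∧ (Goal x D y → Goal x D y0) := by
  have st3 : ∀ y, Had y → Norm0 y → y 2 2 - al ≤ y 1 1 - al → -(y 1 2 + al) ≤ y 1 1 - al →
      -(y 2 1 + al) ≤ y 1 1 - al → ∃ z, Had z ∧ Norm z ∧ (Goal x D z → Goal x D y) := by
    intro y h1 h2 a b c
    rcases le_total (-(y 2 1 + al)) (-(y 1 2 + al)) with d | d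
    · exact ⟨y, h1, ⟨h2, a, d, b⟩, id⟩
    · refine ⟨act sT y, h1.act _, ⟨h2.sT, ?_, ?_, ?_⟩, Goal.of_act⟩ <;> simp only [sT_eq]
      exacts [a, d, c]
  have st2 : ∀ y, Had y → Norm0 y →
      max (-(y 1 2 + al)) (-(y 2 1 + al)) ≤ max (y 1 1 - al) (y 2 2 - al) →
      ∃ z, Had z ∧ Norm z ∧ (Goal x D z → Goal x D y) := by
    intro y h1 h2 a
    rw [max_le_iff] at a
    rcases le_total (y 2 2 - al) (y 1 1 - al) with d | d
    · rw [max_eq_left d] at a
      exact st3 y h1 h2 d a.1 a.2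
    · rw [max_eq_right d] at a
      obtain ⟨z, z1, z2, z3⟩ := st3 (act sS y) (h1.act _) h2.sS
        (by simpa only [sS_eq, sw1, sw2] using d) (by simpa only [sS_eq, sw1, sw2] using a.2)
        (by simpa only [sS_eq, sw1, sw2] using a.1)
      exact ⟨z, z1, z2, fun hz => (z3 hz).of_act⟩
  obtain ⟨y, h1, h2, h3⟩ := exists_norm0 x D h
  rcases le_total (max (-(y 1 2 + al)) (-(y 2 1 + al))) (max (y 1 1 - al) (y 2 2 - al)) with d | d
  · obtain ⟨z, z1, z2, z3⟩ := st2 y h1 h2 d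
    exact ⟨z, z1, z2, fun hz => h3 (z3 hz)⟩
  · obtain ⟨z, z1, z2, z3⟩ := st2 (act sN y) (h1.act _) h2.sN (by
      simp only [sN_eq, sw1, sw2]
      have e1 : -(-y 2 2 + al) = y 2 2 - al := by ring
      have e2 : -(-y 1 1 + al) = y 1 1 - al := by ring
      have e3 : -y 2 1 - al = -(y 2 1 + al) := by ring
      have e4 : -y 1 2 - al = -(y 1 2 + al) := by ring
      rw [e1, e2, e3, e4, max_comm, max_comm (-(y 2 1 + al))]
      exact d)
    exact ⟨z, z1, z2, fun hz => h3 (z3 hz).of_act⟩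

/-- the normal form only sees the bound, the zero row and column and the four entries. -/
theorem Norm.of_minB {y y' : Ph} (h : Norm y) (hM : ∀ m, MinB y m → MinB y' m)
    (hr : ∀ j, y' 0 j = 0) (hc : ∀ a, y' a 0 = 0) (e11 : y' 1 1 = y 1 1) (e12 : y' 1 2 = y 1 2)
    (e21 : y' 2 1 = y 2 1) (e22 : y' 2 2 = y 2 2) : Norm y' := by
  refine ⟨⟨hr, hc, ?_, ?_, ?_, ?_, ?_⟩, ?_, ?_, ?_⟩ <;> simp only [e11, e12, e21, e22]
  exacts [h.b11, h.b12, h.b21, h.b22, hM _ h.min, h.s12, h.s34, h.s13]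

/-- `y'` may replace `y`. -/
structure Repl {ι : Type*} (x : ι → Ph) (D : ℝ) (y y' : Ph) : Prop where
  had : Had y'
  norm : Norm y'
  goal : Goal x D y' → Goal x D y

theorem Repl.trans {ι : Type*} {x : ι → Ph} {D : ℝ} {y y' y'' : Ph} (h : Repl x D y y')
    (h' : Repl x D y' y'') : Repl x D y y'' := ⟨h'.had, h'.norm, fun g => h.goal (h'.goal g)⟩

/-- integer shifts outside the block, row `0` and column `0`. -/
theorem repl_int {ι : Type*} (x : ι → Ph) (D : ℝ) {y : Ph} (h : Had y) (hN : Norm y)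
    (k : Fin 6 → Fin 6 → ℤ) (hk : ∀ a j, a = 0 ∨ j = 0 ∨ (a < 3 ∧ j < 3) → k a j = 0) :
    Repl x D y fun a j => y a j + k a j := by
  have e : ∀ a j, (fun a j => y a j + k a j : Ph) a j = y a j + (0 : V6) a + (0 : V6) j + k a j := by
    intro a j; simp
  refine ⟨h.shift _ _ _ e, hN.of_minB (fun m hm => hm.shift _ _ _ e) (fun j => ?_) (fun a => ?_)
    ?_ ?_ ?_ ?_, fun g => g.of_shift _ _ _ e⟩
  · simp [hk 0 j (Or.inl rfl), hN.row]
  · simp [hk a 0 (Or.inr (Or.inl rfl)), hN.col]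
  all_goals simp only [add_eq_left, Int.cast_eq_zero]; exact hk _ _ (by decide)

/-- permutations fixing `0, 1, 2`. -/
theorem repl_perm {ι : Type*} (x : ι → Ph) (D : ℝ) {y : Ph} (h : Had y) (hN : Norm y)
    (s t : Equiv.Perm (Fin 6)) (hs : ∀ a, a < 3 → s a = a) (ht : ∀ a, a < 3 → t a = a) :
    Repl x D y fun a j => y (s a) (t j) := by
  have e : (fun a j => y (s a) (t j)) = act ⟨s, t, false, false⟩ y := by
    ext a j; simp [act]
  refine ⟨h.perm s t, hN.of_minB (fun m hm => e ▸ hm.act _) (fun j => ?_) (fun a => ?_)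
    ?_ ?_ ?_ ?_, fun g => (e ▸ g : Goal x D (act _ y)).of_act⟩
  · rw [hs 0 (by decide), hN.row]
  · rw [ht 0 (by decide), hN.col]
  all_goals rw [hs _ (by decide), ht _ (by decide)]

/-- recentring: every entry outside the block, row `0` and column `0` selected by `P` is moved
into the interval of length one around `u a j`. -/
theorem repl_centre {ι : Type*} (x : ι → Ph) (D : ℝ) {y : Ph} (h : Had y) (hN : Norm y)
    (P : Fin 6 → Fin 6 → Prop) (u : Ph) (hP : ∀ a j, a = 0 ∨ j = 0 ∨ (a < 3 ∧ j < 3) → ¬ P a j) :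
    ∃ y', Repl x D y y' ∧ (∀ a j, ¬ P a j → y' a j = y a j) ∧
      (∀ a j, P a j → |y' a j - u a j| ≤ 1 / 2) ∧ ∀ a j, ∃ k : ℤ, y' a j = y a j + k := by
  classical
  refine ⟨_, repl_int x D h hN (fun a j => if P a j then -round (y a j - u a j) else 0)
    fun a j haj => if_neg (hP a j haj), fun a j haj => by simp [haj], fun a j haj => ?_,
    fun a j => ⟨_, rfl⟩⟩
  have := abs_sub_round (y a j - u a j)
  simp only [if_pos haj]
  have e : y a j + ((-round (y a j - u a j) : ℤ) : ℝ) - u a j =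
      y a j - u a j - round (y a j - u a j) := by
    push_cast
    ring
  rw [e]
  exact this

/-- the normal form exists; the remaining entries lie in `[0, 1]`. -/
theorem exists_norm {ι : Type*} (x : ι → Ph) (D : ℝ) {y0 : Ph} (h : Had y0) :
    ∃ y, Had y ∧ Norm y ∧ (Goal x D y → Goal x D y0) ∧
      ∀ a j, ¬ (a = 0 ∨ j = 0 ∨ (a < 3 ∧ j < 3)) → |y a j - 1 / 2| ≤ 1 / 2 := by
  obtain ⟨y, h1, h2, h3⟩ := exists_norm1 x D h
  obtain ⟨z, z1, -, z3, -⟩ := repl_centre x D h1 h2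
    (fun a j => ¬ (a = 0 ∨ j = 0 ∨ (a < 3 ∧ j < 3))) (fun _ _ => 1 / 2) fun a j h h' => h' h
  exact ⟨z, z1.had, z1.norm, fun g => h3 (z1.goal g), z3⟩

theorem sort3 (f : Fin 6 → ℕ) : ∃ t : Equiv.Perm (Fin 6), (∀ a, a < 3 → t a = a) ∧
    (∀ a, 3 ≤ a → 3 ≤ t a) ∧ f (t 3) ≤ f (t 4) ∧ f (t 4) ≤ f (t 5) := by
  rcases le_total (f 3) (f 4) with a | a <;> rcases le_total (f 4) (f 5) with b | b <;>
    rcases le_total (f 3) (f 5) with c | c
  · exact ⟨1, by decide, by decide, a, b⟩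
  · exact ⟨1, by decide, by decide, a, b⟩
  · exact ⟨Equiv.swap 4 5, by decide, by decide, c, b⟩
  · exact ⟨Equiv.swap 4 5 * Equiv.swap 3 4, by decide, by decide, c, a⟩
  · exact ⟨Equiv.swap 3 4, by decide, by decide, a, c⟩
  · exact ⟨Equiv.swap 3 4 * Equiv.swap 4 5, by decide, by decide, b, c⟩
  · exact ⟨Equiv.swap 3 5, by decide, by decide, b, a⟩
  · exact ⟨Equiv.swap 3 5, by decide, by decide, b, a⟩

/-- branching on the columns `3, 4, 5`: sorted cells, true lifts, lower right block recentred. -/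
theorem branch_col {ι : Type*} (x : ι → Ph) (D : ℝ) {y : Ph} (h : Had y) (hN : Norm y)
    (n : ℕ) (c1 r1 c2 r2 : ℕ → ℝ) (u : Ph)
    (hB : ∀ j : Fin 6, 3 ≤ j → ∃ i < n, ∃ k l : ℤ,
      |y 1 j - c1 i - k| ≤ r1 i ∧ |y 2 j - c2 i - l| ≤ r2 i) :
    ∃ y' i j k, i ≤ j ∧ j ≤ k ∧ k < n ∧ Repl x D y y' ∧ (∀ a b, b < 3 → y' a b = y a b) ∧
      |y' 1 3 - c1 i| ≤ r1 i ∧ |y' 2 3 - c2 i| ≤ r2 i ∧ |y' 1 4 - c1 j| ≤ r1 j ∧
      |y' 2 4 - c2 j| ≤ r2 j ∧ |y' 1 5 - c1 k| ≤ r1 k ∧ |y' 2 5 - c2 k| ≤ r2 k ∧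
      ∀ a b, 3 ≤ a → 3 ≤ b → |y' a b - u a b| ≤ 1 / 2 := by
  choose! f hf k l hkl using hB
  obtain ⟨t, t1, t2, t3, t4⟩ := sort3 f
  have R1 := repl_perm x D h hN 1 t (fun _ _ => rfl) t1
  have R2 := repl_int x D R1.had R1.norm
    (fun a j => if 3 ≤ j then (if a = 1 then -k (t j) else if a = 2 then -l (t j) else 0) else 0)
    (by
      rintro a j (rfl | rfl | ⟨-, hj⟩)
      · simp
      · simp
      · simp [not_le.2 hj])
  obtain ⟨z, z1, z2, z3, -⟩ := repl_centre x D R2.had R2.norm (fun a b => 3 ≤ a ∧ 3 ≤ b) u (by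
    rintro a j (rfl | rfl | ⟨ha, -⟩) ⟨h1, h2⟩
    · exact absurd h1 (by decide)
    · exact absurd h2 (by decide)
    · exact absurd h1 (not_le.2 ha))
  have E1 : ∀ j, 3 ≤ j → |z 1 j - c1 (f (t j))| ≤ r1 (f (t j)) := by
    intro j hj
    rw [z2 1 j (fun h => absurd h.1 (by decide))]
    convert (hkl _ (t2 j hj)).1 using 2
    simp [hj]; ring
  have E2 : ∀ j, 3 ≤ j → |z 2 j - c2 (f (t j))| ≤ r2 (f (t j)) := by
    intro j hj
    rw [z2 2 j (fun h => absurd h.1 (by decide))]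
    convert (hkl _ (t2 j hj)).2 using 2
    simp [hj]; ring
  refine ⟨z, f (t 3), f (t 4), f (t 5), t3, t4, hf _ (t2 5 (by decide)), (R1.trans R2).trans z1,
    fun a b hb => ?_, E1 3 (by decide), E2 3 (by decide), E1 4 (by decide), E2 4 (by decide),
    E1 5 (by decide), E2 5 (by decide), fun a b ha hb => z3 a b ⟨ha, hb⟩⟩
  rw [z2 a b (fun h => absurd h.2 (not_le.2 hb))]
  simp [not_le.2 hb, t1 b hb]

/-- branching on the rows `3, 4, 5`. -/
theorem branch_row {ι : Type*} (x : ι → Ph) (D : ℝ) {y : Ph} (h : Had y) (hN : Norm y)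
    (n : ℕ) (c1 r1 c2 r2 : ℕ → ℝ) (u : Ph)
    (hB : ∀ j : Fin 6, 3 ≤ j → ∃ i < n, ∃ k l : ℤ,
      |y j 1 - c1 i - k| ≤ r1 i ∧ |y j 2 - c2 i - l| ≤ r2 i) :
    ∃ y' i j k, i ≤ j ∧ j ≤ k ∧ k < n ∧ Repl x D y y' ∧ (∀ a b, a < 3 → y' a b = y a b) ∧
      |y' 3 1 - c1 i| ≤ r1 i ∧ |y' 3 2 - c2 i| ≤ r2 i ∧ |y' 4 1 - c1 j| ≤ r1 j ∧
      |y' 4 2 - c2 j| ≤ r2 j ∧ |y' 5 1 - c1 k| ≤ r1 k ∧ |y' 5 2 - c2 k| ≤ r2 k ∧
      ∀ a b, 3 ≤ a → 3 ≤ b → |y' a b - u a b| ≤ 1 / 2 := by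
  choose! f hf k l hkl using hB
  obtain ⟨t, t1, t2, t3, t4⟩ := sort3 f
  have R1 := repl_perm x D h hN t 1 t1 (fun _ _ => rfl)
  have R2 := repl_int x D R1.had R1.norm
    (fun j a => if 3 ≤ j then (if a = 1 then -k (t j) else if a = 2 then -l (t j) else 0) else 0)
    (by
      rintro a j (rfl | rfl | ⟨hj, -⟩)
      · simp
      · simp
      · simp [not_le.2 hj])
  obtain ⟨z, z1, z2, z3, -⟩ := repl_centre x D R2.had R2.norm (fun a b => 3 ≤ a ∧ 3 ≤ b) u (by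
    rintro a j (rfl | rfl | ⟨ha, -⟩) ⟨h1, h2⟩
    · exact absurd h1 (by decide)
    · exact absurd h2 (by decide)
    · exact absurd h1 (not_le.2 ha))
  have E1 : ∀ j, 3 ≤ j → |z j 1 - c1 (f (t j))| ≤ r1 (f (t j)) := by
    intro j hj
    rw [z2 j 1 (fun h => absurd h.2 (by decide))]
    convert (hkl _ (t2 j hj)).1 using 2
    simp [hj]; ring
  have E2 : ∀ j, 3 ≤ j → |z j 2 - c2 (f (t j))| ≤ r2 (f (t j)) := by
    intro j hj
    rw [z2 j 2 (fun h => absurd h.2 (by decide))]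
    convert (hkl _ (t2 j hj)).2 using 2
    simp [hj]; ring
  refine ⟨z, f (t 3), f (t 4), f (t 5), t3, t4, hf _ (t2 5 (by decide)), (R1.trans R2).trans z1,
    fun a b hb => ?_, E1 3 (by decide), E2 3 (by decide), E1 4 (by decide), E2 4 (by decide),
    E1 5 (by decide), E2 5 (by decide), fun a b ha hb => z3 a b ⟨ha, hb⟩⟩
  rw [z2 a b (fun h => absurd h.1 (not_le.2 hb))]
  simp [not_le.2 hb, t1 a hb]

end Vale.Agent.N355
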