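import Vale.Agent.N355.Pair
import Vale.Agent.N355.Graph2

/-! The assembly of a chart with the graph check `noKL2`. -/

namespace Vale.Agent.N355.Pair

/-- **Assembly** with the pair tests in place, for `noKL2`. -/
theorem assemble2 {w : ℕ} {l : A2.Lf} {N r nU Y YK YN YV nV K C fuel : ℕ} {th : ℕ → ℕ → ℕ}
    {sm ro ru : ℕ → ℕ} {ex : ℕ → ℕ → Bool} {R : ℝ} (Sp : ℕ → ℝ)
    (hB : ∀ s y v, B.Cx l s y → B.Sol y v → B.InL w N Y R v)
    (hP : ∀ v, B.InL w N Y R v → B.InL w N YK R v ∨ B.InL w N YN R v ∨ B.InL w N YV R v)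
    (hK : ∀ s y v, B.Cx l s y → B.Sol y v → ¬ B.InL w N YK R v)
    (hN : ∀ s y v, B.Cx l s y → B.Sol y v → B.InL w N YN R v → ∃ u < nU, InB (cenU th u) v (Sp u))
    (hU : ∀ s y v, B.Cx l s y → B.Sol y v → ∀ u < nU, InB (cenU th u) v (Sp u) →
      InB (cenU th u) v ((sm u : ℝ) / 2 ^ 18))
    (hG : Graph.noKL2 ro ru fuel (2 ^ C - 1) = true)
    (h : pairOK w N r nU th sm YV nV K C ro ru ex = true) (hth : ∀ u a, th u a ≤ 2 ^ 40)
    (hR : 6.2837 * 16384 * R ≤ r) (hex : ExOK w (nU + nV) (vc w N nU th YV) (vr nU sm R) ex) :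
    A2.Bok l := by
  obtain ⟨h1, h2, h3⟩ := pairOK_spec h hth hR hex
  have e : ∀ o : ℕ ⊕ ℕ, o.elim (cls w K) (fun i => cls w K (nU + i))
      = cls w K (o.elim id fun i => nU + i) := fun o => by cases o <;> rfl
  refine B.assemble2 (cenU th) Sp (fun u => (sm u : ℝ) / 2 ^ 18) (cls w K) (fun i => cls w K (nU + i))
    hB hP hK hN hU hG (fun o => Obj w N nU th sm YV nV R (o.elim id fun i => nU + i))
    (fun u v hu hv => ⟨Nat.lt_add_right _ hu, Or.inl hu, ?_⟩)
    (fun i v hi hv => ⟨Nat.add_lt_add_left (h1 i hi) _, Or.inr ?_, ?_⟩)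
    (fun o v ho => by rw [e]; exact h2 _ v ho)
    (fun o o' u v ho ho' h0 => by
      rw [e, e]; exact (h3 _ _ v u ho' ho).1 (by rw [ip_swap, h0, map_zero]))
    fun o o' u v ho ho' h0 => by rw [e, e]; exact (h3 _ _ v u ho' ho).2 h0.symm
  · change InB (if u < nU then _ else _) v (if u < nU then _ else _)
    rwa [if_pos hu, if_pos hu]
  · simpa only [Sum.elim_inr, Nat.add_sub_cancel_left] using hi
  · change InB (if nU + i < nU then _ else B.cenB N (B.lane w YV (nU + i - nU))) v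
      (if nU + i < nU then _ else _)
    rwa [if_neg (by omega), if_neg (by omega), Nat.add_sub_cancel_left]

end Vale.Agent.N355.Pair
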