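import Vale.Agent.N355.Top

/-! The assembly in a form that allows different checks for different cells and caps, and a table
of centres that is extended. -/

namespace Vale.Agent.N355

open Vale.Agent.N355.A2 Vale.Agent.N355.C1

/-- the cell of the centre number `c` contains no second basis of four bases. -/
def Cell (cen : ℕ → ℕ) (K D0 c : ℕ) : Prop :=
  POK (cenK cen K) (xR (cen c)) (D0 / 2 ^ 64) (1 / 2 ^ 32)

/-- more centres and a smaller radius. -/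
theorem Cell.ext {cen cen1 : ℕ → ℕ} {K K1 D0 D1 c : ℕ}
    (hK : ∀ c, c < K1 → c < K ∧ cen c = cen1 c) (hD : D0 ≤ D1) (hc : c < K1)
    (h : Cell cen1 K1 D1 c) : Cell cen K D0 c := by
  unfold Cell
  rw [(hK c hc).2]
  refine fun d h1 h2 h3 => h d h1 (h2.trans (by gcongr)) fun g i z r s k hz => ?_
  refine h3 g ⟨i, (hK i i.2).1⟩ z r s k ?_
  unfold cenK at hz ⊢
  rw [(hK i i.2).2]
  exact hz

theorem Cell.rng {cen cen1 : ℕ → ℕ} {K K1 D0 D1 : ℕ}
    (hK : ∀ c, c < K1 → c < K ∧ cen c = cen1 c) (hD : D0 ≤ D1)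
    (h : N355.Rng (Cell cen1 K1 D1) 0 K1) : N355.Rng (Cell cen K D0) 0 K1 :=
  fun c h1 h2 => Cell.ext hK hD h2 (h c h1 h2)

/-- more centres and a larger radius. -/
theorem ball_ext {cen cen1 : ℕ → ℕ} {K K1 D0 D1 : ℕ} {p : ℕ × ℕ}
    (hK : ∀ c, c < K1 → c < K ∧ cen c = cen1 c) (hD : D1 ≤ D0)
    (h : BallOK cen1 K1 D1 p) : BallOK cen K D0 p := fun y h1 h2 => by
  obtain ⟨g, c, hc, r, s, k, h⟩ := h y h1 h2
  refine ⟨g, c, (hK c hc).1, r, s, k, ?_⟩
  rw [(hK c hc).2]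
  exact h.trans (by gcongr)

theorem two_ext (f g : ℕ → ℕ) {K1 K : ℕ} (h : K1 ≤ K) (c : ℕ) (hc : c < K1) :
    c < K ∧ two f g K1 c = f c := ⟨hc.trans_le h, two_lt hc⟩

theorem same_ext (f : ℕ → ℕ) (K : ℕ) (c : ℕ) (hc : c < K) : c < K ∧ f c = f c := ⟨hc, rfl⟩

/-- the cells of a group of centres. -/
theorem Cell.grp {cen : ℕ → ℕ} {K D0 : ℕ} {PV : ℕ → Lf → Prop} {PB : Lf → Prop}
    (sV : ∀ c l, PV c l → Bok l → Cell cen K D0 c) (sB : ∀ l, PB l → Bok l)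
    {l : List Lf} {a : ℕ} (b : ℕ) (h : Idx PV l a) (k : All PB l)
    (e : Nat.beq (Nat.add a l.length) b = true) : N355.Rng (Cell cen K D0) a b :=
  (Idx.rng' b h k e).imp fun c ⟨l, h1, h2⟩ => sV c l h1 (sB l h2)

theorem top2 {cen : ℕ → ℕ} {K D0 : ℕ} {L : List (List (ℕ × ℕ))}
    (hR : N355.Rng (Cell cen K D0) 0 K) (hC : All2 (BallOK cen K D0) L)
    (hs : subQ R1.balls L = true) (y : Ph) : ¬ Quad y := fun hy => by
  obtain ⟨g, c, hc, h⟩ := hA_of_cover (cen := cen) (K := K) (D0 := D0) (fun _ => R1.cover)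
    (subQ_spec hC hs) y hy
  exact voronoi (cenK cen K) (D := D0 / 2 ^ 64) (by positivity) (fun i => hR.all i i.2) (g := g)
    (i := ⟨c, hc⟩) h hy

end Vale.Agent.N355
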