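import Vale.Agent.N355.WCore
import Vale.Agent.N355.A2NuLeaf

/-! Soundness of the check of a Voronoi cell. -/

namespace Vale.Agent.N355.W

open Finset A2

theorem fn_eq {α : Type} (x : ℕ) (k : ℕ → α) : fn x k = k x := rfl

theorem fi_eq {α : Type} (x : ℤ) (k : ℤ → α) : fi x k = k x := by cases x <;> rfl

theorem an_iff {p q : Bool} : an p q = true ↔ p = true ∧ q = true := by
  cases p <;> simp [an]

theorem pos_spec {x : ℤ} (h : pos x = true) : 0 < x := by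
  cases x with
  | ofNat n => exact Int.natCast_pos.2 (Nat.le_of_ble_eq_true h)
  | negSucc n => exact absurd h Bool.false_ne_true

theorem zer_spec {x : ℤ} (h : zer x = true) : x = 0 := by
  cases x with
  | ofNat n => exact congrArg Int.ofNat (Nat.eq_of_beq_eq_true h)
  | negSucc n => exact absurd h Bool.false_ne_true

theorem cp_eq (x : I5) : cp x = x := rfl

theorem allB_spec {f : ℕ → Bool} : ∀ {n : ℕ}, allB f n = true → ∀ j < n, f j = true
  | 0, _, _, hj => absurd hj (Nat.not_lt_zero _)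
  | n + 1, h, j, hj => by
    have h1 : an (f n) (allB f n) = true := h
    rw [an_iff] at h1
    rcases Nat.lt_succ_iff_lt_or_eq.1 hj with h2 | rfl
    · exact allB_spec h1.2 j h2
    · exact h1.1

/-- the argument of the simplex method at an optimal vertex. -/
theorem key (y x e μ : Fin 4 → ℝ) (a : Fin 4 → Fin 4 → ℝ) {D lam : ℝ} (hD : 0 < D)
    (hμ : ∀ i, D * y i = ∑ m, μ m * a m i) (hx : ∀ m, ∑ i, a m i * x i = e m)
    (hn : ∀ k, ∃ x' : Fin 4 → ℝ, ∑ i, y i * x' i ≤ ∑ i, y i * x i ∧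
      (∀ m, m ≠ k → ∑ i, a m i * x' i = e m) ∧ ∑ i, a k i * x' i < e k)
    (hy : ∀ m, ∑ i, a m i * y i ≤ lam * e m) : ∑ i, y i ^ 2 ≤ lam ^ 2 * ∑ i, x i ^ 2 := by
  have ex : ∀ w : Fin 4 → ℝ, D * ∑ i, y i * w i = ∑ m, μ m * ∑ i, a m i * w i := fun w => by
    simp only [mul_sum]
    rw [sum_comm]
    refine sum_congr rfl fun i _ => ?_
    rw [← mul_assoc, hμ, sum_mul]
    exact sum_congr rfl fun m _ => by ring
  have h0 : ∀ k, 0 ≤ μ k := fun k => by
    obtain ⟨x', h1, h2, h3⟩ := hn k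
    have e1 : D * ∑ i, y i * x i - D * ∑ i, y i * x' i = μ k * (e k - ∑ i, a k i * x' i) := by
      rw [ex, ex, ← sum_sub_distrib, sum_eq_single k]
      · rw [hx]; ring
      · intro m _ hm
        rw [hx, h2 m hm, sub_self]
      · simp
    have e2 : 0 ≤ μ k * (e k - ∑ i, a k i * x' i) := by
      rw [← e1]; nlinarith
    exact nonneg_of_mul_nonneg_left e2 (by linarith)
  have h1 : D * ∑ i, y i * y i ≤ D * (lam * ∑ i, y i * x i) := by
    rw [mul_left_comm, ex, ex, mul_sum]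
    refine sum_le_sum fun m _ => ?_
    rw [hx, mul_left_comm]
    exact mul_le_mul_of_nonneg_left (hy m) (h0 m)
  have h2 := le_of_mul_le_mul_left h1 hD
  have h3 : 0 ≤ ∑ i, (y i - lam * x i) ^ 2 := sum_nonneg fun _ _ => sq_nonneg _
  simp only [Fin.sum_univ_four] at h2 h3 ⊢
  nlinarith

/-- the normal vector of a cut. -/
def nr (p : I5) : Fin 4 → ℝ := ![p.a, p.b, p.c, p.d]

/-- the point with the homogeneous coordinates `x`. -/
noncomputable def pt (x : I5) : Fin 4 → ℝ := ![-x.a / x.e, x.b / x.e, -x.c / x.e, x.d / x.e]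

theorem slk_eq (p x : I5) :
    slk p x = p.a * x.a - p.b * x.b + (p.c * x.c - p.d * x.d) + p.e * x.e := rfl

theorem slk_pt (p x : I5) (h : 0 < x.e) :
    (p.e : ℝ) - ∑ i, nr p i * pt x i = (slk p x : ℝ) / x.e := by
  have h' : (x.e : ℝ) ≠ 0 := by exact_mod_cast h.ne'
  rw [slk_eq]
  simp only [Fin.sum_univ_four, nr, pt, Matrix.cons_val_zero, Matrix.cons_val_one,
    Matrix.cons_val]
  push_cast
  field_simp
  ring

theorem on_cut {p x : I5} (h : 0 < x.e) (h0 : slk p x = 0) : ∑ i, nr p i * pt x i = p.e := by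
  have := slk_pt p x h
  rw [h0] at this
  simp only [Int.cast_zero, zero_div] at this
  linarith

theorem in_cut {p x : I5} (h : 0 < x.e) (h0 : 0 < slk p x) : ∑ i, nr p i * pt x i < p.e := by
  have := slk_pt p x h
  have h1 : (0 : ℝ) < (slk p x : ℝ) / x.e := div_pos (by exact_mod_cast h0) (by exact_mod_cast h)
  linarith

/-- a determinant of order four, given by columns. -/
def dt {R : Type} [CommRing R] (a b c d a' b' c' d' u v w x u' v' w' x' : R) : R :=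
  (a * b' - b * a') * (w * x' - x * w') - (a * c' - c * a') * (v * x' - x * v')
    + ((a * d' - d * a') * (v * w' - w * v') - (b * d' - d * b') * (u * w' - w * u'))
    + ((b * c' - c * b') * (u * x' - x * u') + (c * d' - d * c') * (u * v' - v * u'))

theorem crs_eq (p q r s : I5) : crs p q r s =
    ⟨dt p.b p.c p.d p.e q.b q.c q.d q.e r.b r.c r.d r.e s.b s.c s.d s.e,
      dt p.a p.c p.d p.e q.a q.c q.d q.e r.a r.c r.d r.e s.a s.c s.d s.e,
      dt p.a p.b p.d p.e q.a q.b q.d q.e r.a r.b r.d r.e s.a s.b s.d s.e,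
      dt p.a p.b p.c p.e q.a q.b q.c q.e r.a r.b r.c r.e s.a s.b s.c s.e,
      dt p.a p.b p.c p.d q.a q.b q.c q.d r.a r.b r.c r.d s.a s.b s.c s.d⟩ := by
  cases p; cases q; cases r; cases s
  simp only [crs, mn2, fi_eq]
  rfl

theorem slk_crs (p q r s : I5) : slk p (crs p q r s) = 0 ∧ slk q (crs p q r s) = 0 ∧
    slk r (crs p q r s) = 0 ∧ slk s (crs p q r s) = 0 := by
  simp only [crs_eq, slk_eq, dt]
  refine ⟨?_, ?_, ?_, ?_⟩ <;> ring

/-- the determinant of four vectors. -/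
def dv (p q r s : Fin 4 → ℝ) : ℝ :=
  dt (p 0) (p 1) (p 2) (p 3) (q 0) (q 1) (q 2) (q 3) (r 0) (r 1) (r 2) (r 3) (s 0) (s 1) (s 2) (s 3)

theorem cramer (p q r s y : Fin 4 → ℝ) (i : Fin 4) : dv p q r s * y i =
    dv y q r s * p i + dv p y r s * q i + dv p q y s * r i + dv p q r y * s i := by
  unfold dv dt
  fin_cases i <;> simp only [Fin.zero_eta, Fin.mk_one, Fin.reduceFinMk] <;> ring

theorem crs_e (p q r s : I5) : ((crs p q r s).e : ℝ) = dv (nr p) (nr q) (nr r) (nr s) := by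
  rw [crs_eq]
  simp only [dv, dt, nr, Matrix.cons_val_zero, Matrix.cons_val_one, Matrix.cons_val]
  push_cast
  rfl

theorem ball_spec {A : ℕ} {x : I5} (h : ball A x = true) :
    0 < x.e ∧ ∑ i, pt x i ^ 2 ≤ (72 * (A : ℝ) / 2 ^ 64) ^ 2 := by
  obtain ⟨a, b, c, d, e⟩ := x
  obtain ⟨h1, h2⟩ := an_iff.1 h
  have h3 := pos_spec h1
  refine ⟨h3, ?_⟩
  have h4 : (A2.sq a.natAbs + A2.sq b.natAbs + (A2.sq c.natAbs + A2.sq d.natAbs)) <<< 128
      ≤ A2.sq (72 * A * e.natAbs) := Nat.le_of_ble_eq_true h2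
  rw [Nat.shiftLeft_eq] at h4
  have h5 := (Nat.cast_le (α := ℝ)).2 h4
  push_cast at h5
  simp only [sq_cast, Nat.cast_natAbs, Int.cast_abs, sq_abs, Nat.cast_mul, mul_pow,
    Nat.cast_ofNat] at h5
  have h6 : (0 : ℝ) < (e : ℝ) ^ 2 := by positivity
  simp only [Fin.sum_univ_four, pt, Matrix.cons_val_zero, Matrix.cons_val_one, Matrix.cons_val,
    div_pow, neg_sq, mul_pow]
  rw [← add_div, ← add_div, ← add_div, div_le_div_iff₀ h6 (by positivity)]
  linarith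

theorem edge_spec {vt : ℕ → I5} {nV n : ℕ} {p q r s : I5} (h : edge vt nV n p q r s = true) :
    n < nV ∧ 0 < slk p (vt n) ∧ slk q (vt n) = 0 ∧ slk r (vt n) = 0 ∧ slk s (vt n) = 0 := by
  simp only [edge, an_iff] at h
  exact ⟨Nat.le_of_ble_eq_true h.1, pos_spec h.2.1, zer_spec h.2.2.1, zer_spec h.2.2.2.1,
    zer_spec h.2.2.2.2⟩

theorem fan_sound {rw : ℕ → I5} {nV VX A : ℕ} (h : fanOK rw nV VX A = true) {lam : ℝ}
    (y : Fin 4 → ℝ) (hy : ∀ k, ∑ i, nr (rw k) i * y i ≤ lam * (rw k).e) :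
    ∑ i, y i ^ 2 ≤ lam ^ 2 * (72 * (A : ℝ) / 2 ^ 64) ^ 2 := by
  obtain ⟨h1, h2⟩ := an_iff.1 h
  have h3 := allB_spec h2
  have hb : ∀ j < nV, 0 < (vtx rw VX j).e ∧
      ∑ i, pt (vtx rw VX j) i ^ 2 ≤ (72 * (A : ℝ) / 2 ^ 64) ^ 2 := fun j hj =>
    ball_spec (an_iff.1 (h3 j hj)).1
  obtain ⟨j, hj, hm⟩ := exists_max_image (range nV) (fun j => ∑ i, y i * pt (vtx rw VX j) i)
    ⟨0, mem_range.2 (Nat.le_of_ble_eq_true h1)⟩
  rw [mem_range] at hj
  have h4 := h3 j hj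
  simp only [vOK, fn_eq, an_iff] at h4
  obtain ⟨-, e0, e1, e2, e3⟩ := h4
  set r := fld VX 96 j
  have hv : vtx rw VX j = crs (fc rw r 0) (fc rw r 1) (fc rw r 2) (fc rw r 3) := rfl
  obtain ⟨z0, z1, z2, z3⟩ := slk_crs (fc rw r 0) (fc rw r 1) (fc rw r 2) (fc rw r 3)
  rw [← hv] at z0 z1 z2 z3
  have hD := (hb j hj).1
  refine (key y (pt (vtx rw VX j)) (fun m => (fc rw r m).e)
    ![dv y (nr (fc rw r 1)) (nr (fc rw r 2)) (nr (fc rw r 3)),
      dv (nr (fc rw r 0)) y (nr (fc rw r 2)) (nr (fc rw r 3)),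
      dv (nr (fc rw r 0)) (nr (fc rw r 1)) y (nr (fc rw r 3)),
      dv (nr (fc rw r 0)) (nr (fc rw r 1)) (nr (fc rw r 2)) y]
    (fun m => nr (fc rw r m)) (D := (vtx rw VX j).e) (lam := lam) (by exact_mod_cast hD)
    (fun i => ?_) (fun m => ?_) (fun k => ?_) fun m => hy _).trans
    (mul_le_mul_of_nonneg_left (hb j hj).2 (sq_nonneg _))
  · rw [hv, crs_e, cramer, Fin.sum_univ_four]
    rfl
  · fin_cases m
    exacts [on_cut hD z0, on_cut hD z1, on_cut hD z2, on_cut hD z3]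
  · fin_cases k
    · obtain ⟨a, b, c, d, e⟩ := edge_spec e0
      have hn := (hb _ a).1
      refine ⟨_, hm _ (mem_range.2 a), fun m hm => ?_, in_cut hn b⟩
      fin_cases m
      exacts [absurd rfl hm, on_cut hn c, on_cut hn d, on_cut hn e]
    · obtain ⟨a, b, c, d, e⟩ := edge_spec e1
      have hn := (hb _ a).1
      refine ⟨_, hm _ (mem_range.2 a), fun m hm => ?_, in_cut hn b⟩
      fin_cases m
      exacts [on_cut hn c, absurd rfl hm, on_cut hn d, on_cut hn e]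
    · obtain ⟨a, b, c, d, e⟩ := edge_spec e2
      have hn := (hb _ a).1
      refine ⟨_, hm _ (mem_range.2 a), fun m hm => ?_, in_cut hn b⟩
      fin_cases m
      exacts [on_cut hn c, on_cut hn d, absurd rfl hm, on_cut hn e]
    · obtain ⟨a, b, c, d, e⟩ := edge_spec e3
      have hn := (hb _ a).1
      refine ⟨_, hm _ (mem_range.2 a), fun m hm => ?_, in_cut hn b⟩
      fin_cases m
      exacts [on_cut hn c, on_cut hn d, on_cut hn e, absurd rfl hm]

/-- thirty-six times the centred difference vector. -/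
noncomputable def zR' (g : Nb) (X Y : ℕ) : Ph := fun a j => ((zC g X Y a j : ℝ) - 4718592) / 65536

theorem rS_le (g : Nb) (X Y a : ℕ) : rS g X Y a ≤ 6 * 65535 := by
  have e : rS g X Y a = dE g X Y a 0 + dE g X Y a 1 + dE g X Y a 2 + dE g X Y a 3 + dE g X Y a 4
    + dE g X Y a 5 := rfl
  have h0 := dE_lt g X Y a 0
  have h1 := dE_lt g X Y a 1
  have h2 := dE_lt g X Y a 2
  have h3 := dE_lt g X Y a 3
  have h4 := dE_lt g X Y a 4
  have h5 := dE_lt g X Y a 5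
  omega

theorem cS_le (g : Nb) (X Y j : ℕ) : cS g X Y j ≤ 6 * 65535 := by
  have e : cS g X Y j = dE g X Y 0 j + dE g X Y 1 j + dE g X Y 2 j + dE g X Y 3 j + dE g X Y 4 j
    + dE g X Y 5 j := rfl
  have h0 := dE_lt g X Y 0 j
  have h1 := dE_lt g X Y 1 j
  have h2 := dE_lt g X Y 2 j
  have h3 := dE_lt g X Y 3 j
  have h4 := dE_lt g X Y 4 j
  have h5 := dE_lt g X Y 5 j
  omega

theorem zC_cast (g : Nb) (X Y a j : ℕ) : (zC g X Y a j : ℝ) = 36 * dE g X Y a j
    + (n6 fun b => rS g X Y b : ℕ) + 4718592 - 6 * (rS g X Y a + cS g X Y j) := by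
  have e : zC g X Y a j = 36 * dE g X Y a j + (n6 fun b => rS g X Y b) + 4718592
    - 6 * (rS g X Y a + cS g X Y j) := rfl
  have h1 := rS_le g X Y a
  have h2 := cS_le g X Y j
  rw [e, Nat.cast_sub (by omega)]
  push_cast
  ring

theorem zR'_form (g : Nb) (X Y : ℕ) (hs : isPerm g.s = true) (ht : isPerm g.t = true) :
    ∃ (G : Sym) (r s : V6) (k : Fin 6 → Fin 6 → ℤ), ∀ a j,
      zR' g X Y a j / 36 = act G (xR Y) a j - xR X a j - r a - s j - k a j := by
  obtain ⟨G, r, s, k, h⟩ := zR_form g X Y hs ht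
  refine ⟨G, fun a => r a + ((rS g X Y a : ℝ) / 6 - rE g X Y a) / 65536,
    fun j => s j + ((cS g X Y j : ℝ) / 6 - cE g X Y j + 65536
      - (n6 fun b => rS g X Y b : ℕ) / 36) / 65536, k, fun a j => ?_⟩
  have e : zE g X Y a j = dE g X Y a j + 196608 - (rE g X Y a + cE g X Y j) := rfl
  have h1 := rE_le g X Y a
  have h2 := cE_le g X Y j
  have h3 : (zE g X Y a j : ℝ) = dE g X Y a j + 196608 - (rE g X Y a + cE g X Y j) := by
    rw [e, Nat.cast_sub (by omega)]; push_cast; ring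
  have h4 := h a j
  unfold zR at h4
  unfold zR'
  rw [h3] at h4
  rw [zC_cast]
  linarith

theorem aC_spec (g : Nb) (X Y L : ℕ) (p : Fin 4) :
    (aC g X Y L p : ℝ) = 2 ^ 32 * dot (LR L p) (zR' g X Y) := by
  unfold aC sN
  simp only [subNatNat_cast, add_cast, mul_cast, n36_cast, dot, LR, zR', Fin.sum_univ_six]
  push_cast
  ring

theorem zz_spec (g : Nb) (X Y : ℕ) : (zz g X Y : ℝ) = 2 ^ 32 * nsq (zR' g X Y) := by
  unfold zz nsq
  simp only [n36_cast, sq_cast, dst_cast, sq_abs, mul_sum, zR']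
  exact sum_congr rfl fun a _ => sum_congr rfl fun j _ => by push_cast; ring

theorem cut_lin {L : ℕ} {a : ℕ → ℤ} {w : ℕ} {z d : Ph}
    (ha : ∀ p : Fin 4, (a p : ℝ) = 2 ^ 32 * dot (LR L p) z) (hz : (w : ℝ) = 2 ^ 32 * nsq z)
    {nu U : ℝ} (h0 : 0 ≤ nu) (h1 : 0 ≤ U) (hn : nsq (nv L L d) ≤ nu ^ 2)
    (hU : (u2 L a w : ℝ) ≤ 2 ^ 96 * U ^ 2) :
    ∑ p : Fin 4, (aF L a p : ℝ) * sc L d p ≤ 2 ^ 64 * (dot d z + nu * U) := by
  set s := sc L d with hs
  set al : Fin 4 → ℝ := fun p => dot (LR L p) z with hal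
  set u : Ph := fun a j => z a j - cmb al (LR L) a j with hu
  have hF : ∀ p : Fin 4, (aF L a p : ℝ)
      = 2 ^ 64 * (2 * al p - ∑ q, al q * dot (LR L p) (LR L q)) := by
    intro p
    rw [aF_cast]
    simp only [ha, gram_spec, Fin.sum_univ_four, hal]
    ring
  have e1 : dot d z = ∑ p, s p * (2 * al p - ∑ q, al q * dot (LR L p) (LR L q))
      + dot (nv L L d) u := by
    have a1 : dot (nv L L d) u = dot u d - ∑ p, s p * dot u (LR L p) := by
      rw [dot_comm, ← dot_cmb', ← dot_sub]; rfl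
    have a2 : dot u d = dot d z - ∑ p, al p * s p := by
      rw [dot_comm, hu, dot_sub, dot_cmb']
      exact congrArg _ (sum_congr rfl fun p _ => by rw [dot_comm]; rfl)
    have a3 : ∀ p, dot u (LR L p) = al p - ∑ q, al q * dot (LR L p) (LR L q) := by
      intro p
      rw [dot_comm, hu, dot_sub, dot_cmb']
    rw [a1, a2]
    simp only [a3, Fin.sum_univ_four]
    ring
  have e2 : nsq u = nsq z - ∑ p, al p * (2 * al p - ∑ q, al q * dot (LR L p) (LR L q)) := by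
    rw [hu, nsq_sub, nsq_dot (cmb al (LR L)), dot_cmb', dot_cmb]
    simp only [dot_cmb', dot_comm z, Fin.sum_univ_four, hal]
    ring
  have e3 : nsq u ≤ U ^ 2 := by
    have b2 : ((((18446744073709551616 * w : ℕ) : ℤ) - i4 fun p => a p * aF L a p : ℤ) : ℝ)
        ≤ u2 L a w := le_toNat_cast _
    push_cast at b2
    rw [i4_cast] at b2
    push_cast at b2
    simp only [hF, ha, hz, Fin.sum_univ_four] at b2
    rw [e2]
    simp only [Fin.sum_univ_four, hal] at b2 ⊢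
    linarith
  have e4 := (abs_le.1 (dot_le h0 h1 hn e3)).1
  simp only [hF, Fin.sum_univ_four] at e1 ⊢
  linarith

/-- the cut `p` holds at `y` after scaling by `lam`. -/
def Ok (p : I5) (y : Fin 4 → ℝ) (lam : ℝ) : Prop := ∑ i, nr p i * y i ≤ lam * p.e

theorem ok_zero (y : Fin 4 → ℝ) (lam : ℝ) :
    Ok ⟨Int.ofNat 0, Int.ofNat 0, Int.ofNat 0, Int.ofNat 0, Int.ofNat 0⟩ y lam := by
  simp [Ok, nr, Fin.sum_univ_four]

theorem rw1_ok {g : Nb} {X Y L be nu : ℕ} {d : Ph}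
    (hc : 2 * dot d (fun a j => zR' g X Y a j / 36) ≤ nsq (fun a j => zR' g X Y a j / 36) + 1 / 2 ^ 32)
    (hn : nsq (nv L L d) ≤ ((nu : ℝ) / 2 ^ 32) ^ 2) :
    Ok (rw1 g X Y L be) (fun p => 72 * sc L d p / 2 ^ 32) (1 + be * nu / 2 ^ 48) := by
  unfold rw1
  rw [fn_eq]
  cases h : Nat.ble (Nat.mul 5184 (u2 L (aC g X Y L) (zz g X Y)))
      (A2.sq (Nat.mul be (Nat.add (zz g X Y) 1296)))
  · exact ok_zero _ _
  · simp only [fi_eq, fn_eq]
    have h1 := (Nat.cast_le (α := ℝ)).2 (Nat.le_of_ble_eq_true h)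
    rw [sq_cast, mul_cast, mul_cast, add_cast] at h1
    have h2 := cut_lin (aC_spec g X Y L) (zz_spec g X Y) (nu := (nu : ℝ) / 2 ^ 32)
      (U := be * (zz g X Y + 1296) / (72 * 2 ^ 48)) (by positivity) (by positivity) hn (by
        rw [div_pow]
        push_cast at h1
        linarith)
    have e1 : dot d (fun a j => zR' g X Y a j / 36) = dot d (zR' g X Y) / 36 := by
      unfold dot
      simp only [sum_div, mul_div_assoc]
    have e2 : nsq (fun a j => zR' g X Y a j / 36) = nsq (zR' g X Y) / 1296 := by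
      unfold nsq
      simp only [sum_div, div_pow]
      norm_num
    rw [e1, e2] at hc
    have h3 := zz_spec g X Y
    have e3 : (nu : ℝ) / 2 ^ 32 * (be * (zz g X Y + 1296) / (72 * 2 ^ 48))
        = be * nu * (zz g X Y + 1296) / (72 * 2 ^ 80) := by ring
    rw [e3] at h2
    simp only [Ok, nr, Fin.sum_univ_four, Matrix.cons_val_zero, Matrix.cons_val_one,
      Matrix.cons_val, Int.ofNat_eq_natCast, Int.cast_natCast, add_cast] at h2 ⊢
    have e4 : (1 + (be : ℝ) * nu / 2 ^ 48) * (zz g X Y + (1296 : ℕ))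
        = zz g X Y + 1296 + be * nu * (zz g X Y + 1296) / 2 ^ 48 := by push_cast; ring
    rw [e4]
    simp only [Fin.isValue, Fin.coe_ofNat_eq_mod, Nat.zero_mod, Nat.reduceMod] at h2
    linarith

theorem row_ok {cen : ℕ → ℕ} {K X L be NB nu : ℕ} {d : Ph}
    (hc : ∀ (g : Sym) (i : Fin K) (z : Ph) (r s : V6) (k : Fin 6 → Fin 6 → ℤ),
      (∀ a j, z a j = act g (xR (cen i)) a j - xR X a j - r a - s j - k a j) →
        2 * dot d z ≤ nsq z + 1 / 2 ^ 32)
    (hn : nsq (nv L L d) ≤ ((nu : ℝ) / 2 ^ 32) ^ 2) (k : ℕ) :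
    Ok (row cen K X L be NB k) (fun p => 72 * sc L d p / 2 ^ 32) (1 + be * nu / 2 ^ 48) := by
  unfold row rw2
  simp only [fn_eq]
  generalize fld NB 56 k = r
  cases h : an (isPerm (fld r 18 0)) (an (isPerm (fld r 18 1))
      (Nat.ble (Nat.succ (Nat.shiftRight r 40)) K))
  · exact ok_zero _ _
  · simp only [an_iff] at h
    have aux : ∀ p q : Bool, Ok (rw1 ⟨fld r 18 0, fld r 18 1, p, q, Nat.shiftRight r 40⟩ X
        (cen (Nat.shiftRight r 40)) L be) (fun p => 72 * sc L d p / 2 ^ 32)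
        (1 + be * nu / 2 ^ 48) := fun p q => by
      obtain ⟨G, r', s, k, hz⟩ := zR'_form ⟨fld r 18 0, fld r 18 1, p, q, Nat.shiftRight r 40⟩ X
        (cen (Nat.shiftRight r 40)) h.1 h.2.1
      exact rw1_ok (hc G ⟨_, Nat.le_of_ble_eq_true h.2.2⟩ _ r' s k hz) hn
    cases Nat.beq (fld r 1 36) 1 <;> cases Nat.beq (fld r 1 37) 1 <;> exact aux _ _

theorem hOf_spec {A be nu : ℕ} {s : Fin 4 → ℝ}
    (h : ∑ i, (72 * s i / 2 ^ 32) ^ 2 ≤ (1 + (be : ℝ) * nu / 2 ^ 48) ^ 2 * (72 * (A : ℝ) / 2 ^ 64) ^ 2) :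
    ∑ i, s i ^ 2 ≤ (hOf A be nu : ℝ) / 2 ^ 64 := by
  have e : hOf A be nu = A2.sq (A + Nat.succ (Nat.div (Nat.mul (Nat.mul A be) nu) (2 ^ 48))) := by
    unfold hOf
    congr 1
    show A + (A * be * nu) >>> 48 + 1 = _
    rw [Nat.shiftRight_eq_div_pow]
    rfl
  have h1 := div_le_succ (Nat.mul (Nat.mul A be) nu) (2 ^ 48) (by norm_num)
  rw [mul_cast, mul_cast] at h1
  rw [e, sq_cast, Nat.cast_add]
  have h2 : (1 + (be : ℝ) * nu / 2 ^ 48) * A
      ≤ A + (Nat.succ (Nat.div (Nat.mul (Nat.mul A be) nu) (2 ^ 48)) : ℕ) := by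
    rw [Nat.cast_pow, Nat.cast_ofNat] at h1
    linarith
  have h3 := pow_le_pow_left₀ (by positivity) h2 2
  simp only [Fin.sum_univ_four] at h ⊢
  linarith

theorem boot_spec (N : Nm) (A be : ℕ) (P : ℕ → Prop)
    (h : ∀ D, P D → P (dOf N (hOf A be (nuOf N D)) (nuOf N D))) :
    ∀ T D, P D → P (boot N A be T D)
  | 0, _, hD => hD
  | T + 1, D, hD => by
    have e : boot N A be (T + 1) D
      = boot N A be T (mn D (dOf N (hOf A be (nuOf N D)) (nuOf N D))) := rfl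
    rw [e]
    refine boot_spec N A be P h T _ ?_
    rcases mn_cases D (dOf N (hOf A be (nuOf N D)) (nuOf N D)) with e | e <;> rw [e]
    · exact hD
    · exact h D hD

theorem vorOK_sound {cen : ℕ → ℕ} {K D0 c : ℕ} {l : Lf} {v : VC}
    (h : vorOK cen K D0 c l v = true) (hB : Bok l) :
    POK (fun i : Fin K => xR (cen i)) (xR (cen c)) (D0 / 2 ^ 64) (1 / 2 ^ 32) := by
  intro d hd hD hcut hQ
  simp only [vorOK, last, an_iff, fn_eq] at h
  obtain ⟨h1, h2, ⟨h3, h4⟩, h5⟩ := h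
  rw [← Nat.eq_of_beq_eq_true h1] at hcut hQ
  have hH := hQ.had
  have hs : ∀ D : ℕ, nsq d ≤ (D : ℝ) / 2 ^ 64 → ∑ p, sc l.L d p ^ 2
      ≤ (hOf v.A v.be (nuOf (nums l.X l.L l.L v.kap v.t) D) : ℝ) / 2 ^ 64 := fun D hD =>
    hOf_spec (fan_sound h5 _ (row_ok hcut (nu_spec hd h2 hH hD)))
  have hb := boot_spec (nums l.X l.L l.L v.kap v.t) v.A v.be (fun D => nsq d ≤ (D : ℝ) / 2 ^ 64)
    (fun D hD => d_spec _ _ _ _ _ d (hs D hD) (nu_spec hd h2 hH hD)) v.T D0 hD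
  have h6 := (Nat.cast_le (α := ℝ)).2 (Nat.le_of_ble_eq_true h3)
  exact nu_leaf h2 h4 hB d hd ((hs _ hb).trans (by gcongr)) (nu_spec hd h2 hH hb) hb hQ

/-- no four bases, from the covering and the cells. -/
theorem no_quad (cen : ℕ → ℕ) (K D0 : ℕ)
    (hA : ∀ y, Quad y → ∃ (g : Sym) (c : ℕ), c < K ∧ Near (act g y) (xR (cen c)) (D0 / 2 ^ 64))
    (hP : ∀ c < K, POK (fun i : Fin K => xR (cen i)) (xR (cen c)) (D0 / 2 ^ 64) (1 / 2 ^ 32))
    (y : Ph) : ¬ Quad y := fun hy => by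
  obtain ⟨g, c, hc, h⟩ := hA y hy
  exact voronoi (fun i : Fin K => xR (cen i)) (D := D0 / 2 ^ 64) (ε := 1 / 2 ^ 32) (by positivity)
    (fun i => hP i i.2) (g := g) (i := ⟨c, hc⟩) h hy

end Vale.Agent.N355.W
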